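import Vale.Agent.P038.K4.Gen

/-!
# The structure inequality inside `A`
-/

namespace Vale.Agent.P038.K4

open Finset

variable {V : Type*} [Fintype V]

open Classical in
/-- `xw` as a sum over `A` with an indicator -/
theorem astruct_xw (D : OGraph V) (w : V → ℝ) (A : Finset V) (u : V) :
    xw D w A u = ∑ y ∈ A, if D.arc u y then w y else 0 := by
  unfold xw
  rw [← Finset.sum_filter]
  refine Finset.sum_congr ?_ fun _ _ => rfl
  ext y
  simp [mem_N1, and_comm]

open Classical in
theorem astruct_sum_Mk (D : OGraph V) (w : V → ℝ) (A : Finset V) (u : V)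
    (hx : 0 < xw D w A u) : ∑ a ∈ A, Mk D w A u a = 1 := by
  have h : ∀ a ∈ A, Mk D w A u a = (if D.arc u a then w a else 0) / xw D w A u := by
    intro a _
    unfold Mk
    split_ifs <;> simp
  rw [Finset.sum_congr rfl h, ← Finset.sum_div, ← astruct_xw, div_self hx.ne']

open Classical in
/-- weight of the middle points of the paths `u → a → b` inside `A` -/
noncomputable def astruct_Y (D : OGraph V) (w : V → ℝ) (A : Finset V) (u b : V) : ℝ :=
  ∑ a ∈ A, if D.arc u a ∧ D.arc a b then w a else 0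

open Classical in
theorem astruct_Y_nonneg (D : OGraph V) (w : V → ℝ) (hw : ∀ v, 0 ≤ w v) (A : Finset V)
    (u b : V) : 0 ≤ astruct_Y D w A u b := by
  unfold astruct_Y
  refine Finset.sum_nonneg fun a _ => ?_
  split_ifs
  · exact hw a
  · exact le_rfl

open Classical in
theorem astruct_Y_le (D : OGraph V) (w : V → ℝ) (hw : ∀ v, 0 ≤ w v) (A : Finset V)
    (hA1 : ∑ y ∈ A, w y = 1)
    (htri : ∀ a ∈ A, ∀ b ∈ A, ∀ c ∈ A, Joined D a b → Joined D b c → Joined D a c → False)
    (u a b : V) (ha : a ∈ A) (hb : b ∈ A) (hab : D.arc a b) :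
    astruct_Y D w A u b ≤ 1 - xw D w A a - xw D w A b := by
  have key : astruct_Y D w A u b + xw D w A a + xw D w A b ≤ 1 := by
    rw [astruct_xw D w A a, astruct_xw D w A b, astruct_Y, ← Finset.sum_add_distrib,
      ← Finset.sum_add_distrib, ← hA1]
    refine Finset.sum_le_sum fun y hy => ?_
    have hwy := hw y
    by_cases h1 : D.arc u y ∧ D.arc y b
    · have h2 : ¬ D.arc a y := fun h => htri a ha y hy b hb (Or.inl h) (Or.inl h1.2) (Or.inl hab)
      have h3 : ¬ D.arc b y := D.asymm y b h1.2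
      simp [h1, h2, h3]
    · by_cases h2 : D.arc a y
      · have h3 : ¬ D.arc b y := fun h => htri a ha b hb y hy (Or.inl hab) (Or.inl h) (Or.inl h2)
        simp [h1, h2, h3]
      · by_cases h3 : D.arc b y
        · simp [h1, h2, h3]
        · simp [h1, h2, h3, hwy]
  linarith

open Classical in
theorem astruct (k : ℝ) (D : OGraph V) (w : V → ℝ) (hw : ∀ v, 0 ≤ w v) (A : Finset V)
    (hA1 : ∑ y ∈ A, w y = 1)
    (htri : ∀ a ∈ A, ∀ b ∈ A, ∀ c ∈ A, Joined D a b → Joined D b c → Joined D a c → False)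
    (hx : ∀ u ∈ A, 0 < xw D w A u) (u : V) (hu : u ∈ A) :
    0 ≤ ∑ a ∈ A, ∑ b ∈ A, Mk D w A u a * Mk D w A a b *
      (k^2*xw D w A u*(1-xw D w A u)
        - xw D w A a*(xw D w A a + xw D w A b + 2*k*xw D w A u - 1)) := by
  set xu := xw D w A u with hxu
  have hxu0 : 0 < xu := hx u hu
  have hY0 : ∀ b, D.arc u b → b ∈ A → astruct_Y D w A u b = 0 := by
    intro b hub hb
    unfold astruct_Y
    refine Finset.sum_eq_zero fun a ha => ?_
    rw [if_neg]
    rintro ⟨h1, h2⟩
    exact htri u hu a ha b hb (Or.inl h1) (Or.inl h2) (Or.inl hub)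
  have hterm : ∀ a ∈ A, ∀ b ∈ A,
      k^2*xu*(1-xu) * (Mk D w A u a * Mk D w A a b)
        + 1 / xu * ((if D.arc u a ∧ D.arc a b then w a else 0)
            * (w b * (astruct_Y D w A u b - 2*k*xu)))
      ≤ Mk D w A u a * Mk D w A a b *
      (k^2*xu*(1-xu) - xw D w A a*(xw D w A a + xw D w A b + 2*k*xu - 1)) := by
    intro a ha b hb
    by_cases h1 : D.arc u a
    · by_cases h2 : D.arc a b
      · have hxa := hx a ha
        have hY := astruct_Y_le D w hw A hA1 htri u a b ha hb h2
        have hMu : Mk D w A u a = w a / xu := by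
          unfold Mk
          rw [if_pos h1]
        have hMa : Mk D w A a b = w b / xw D w A a := by
          unfold Mk
          rw [if_pos h2]
        rw [hMu, hMa, if_pos ⟨h1, h2⟩]
        have e : w a / xu * (w b / xw D w A a) *
            (k^2*xu*(1-xu) - xw D w A a*(xw D w A a + xw D w A b + 2*k*xu - 1))
            = k^2*xu*(1-xu) * (w a / xu * (w b / xw D w A a))
              + 1 / xu * (w a * (w b * (1 - xw D w A a - xw D w A b - 2*k*xu))) := by
          field_simp
          ring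
        rw [e]
        have hw2 : 0 ≤ 1 / xu * (w a * w b) :=
          mul_nonneg (by positivity) (mul_nonneg (hw a) (hw b))
        nlinarith [mul_le_mul_of_nonneg_left hY hw2]
      · have hMa : Mk D w A a b = 0 := by
          unfold Mk
          rw [if_neg h2]
        rw [hMa, if_neg (fun h => h2 h.2)]
        simp
    · have hMu : Mk D w A u a = 0 := by
        unfold Mk
        rw [if_neg h1]
      rw [hMu, if_neg (fun h => h1 h.1)]
      simp
  have hsum := Finset.sum_le_sum fun a ha => Finset.sum_le_sum fun b hb => hterm a ha b hb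
  refine le_trans ?_ hsum
  have e1 : ∑ a ∈ A, ∑ b ∈ A, (k^2*xu*(1-xu) * (Mk D w A u a * Mk D w A a b)
        + 1 / xu * ((if D.arc u a ∧ D.arc a b then w a else 0)
            * (w b * (astruct_Y D w A u b - 2*k*xu))))
      = k^2*xu*(1-xu) * ∑ a ∈ A, Mk D w A u a * ∑ b ∈ A, Mk D w A a b
        + 1 / xu * ∑ b ∈ A, astruct_Y D w A u b * (w b * (astruct_Y D w A u b - 2*k*xu)) := by
    have e2 : ∑ b ∈ A, astruct_Y D w A u b * (w b * (astruct_Y D w A u b - 2*k*xu))
        = ∑ a ∈ A, ∑ b ∈ A, (if D.arc u a ∧ D.arc a b then w a else 0)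
            * (w b * (astruct_Y D w A u b - 2*k*xu)) := by
      rw [Finset.sum_comm]
      refine Finset.sum_congr rfl fun b _ => ?_
      rw [← Finset.sum_mul]
      rfl
    rw [e2, Finset.mul_sum, Finset.mul_sum, ← Finset.sum_add_distrib]
    refine Finset.sum_congr rfl fun a _ => ?_
    rw [Finset.mul_sum, Finset.mul_sum, Finset.mul_sum, ← Finset.sum_add_distrib]
  rw [e1]
  have e3 : ∑ a ∈ A, Mk D w A u a * ∑ b ∈ A, Mk D w A a b = 1 := by
    rw [← astruct_sum_Mk D w A u hxu0]
    refine Finset.sum_congr rfl fun a ha => ?_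
    rw [astruct_sum_Mk D w A a (hx a ha), mul_one]
  rw [e3]
  have e4 : -(k^2*xu^2) * (1 - xu)
      ≤ ∑ b ∈ A, astruct_Y D w A u b * (w b * (astruct_Y D w A u b - 2*k*xu)) := by
    have e5 : -(k^2*xu^2) * (1 - xu)
        = ∑ b ∈ A, -(k^2*xu^2) * (w b - if D.arc u b then w b else 0) := by
      rw [← Finset.mul_sum, Finset.sum_sub_distrib, hA1, ← astruct_xw]
    rw [e5]
    refine Finset.sum_le_sum fun b hb => ?_
    by_cases h : D.arc u b
    · rw [hY0 b h hb, if_pos h]
      simp
    · rw [if_neg h]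
      have := mul_nonneg (hw b) (sq_nonneg (astruct_Y D w A u b - k*xu))
      nlinarith
  have e6 : 1 / xu * (-(k^2*xu^2) * (1 - xu)) = -(k^2*xu*(1-xu)) := by
    field_simp
  have e7 := mul_le_mul_of_nonneg_left e4 (by positivity : (0:ℝ) ≤ 1 / xu)
  rw [e6] at e7
  linarith

end Vale.Agent.P038.K4
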