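import Mathlib

/-! # P038/K4/Chk : kernel checker for nonnegativity of integer polynomials on the orthant.

Nested Horner trees (`P`), expressions (`Ex`), certificates (`Tr`, binary trees of substitutions
`y_i := y_i + y_j`, `y_j := y_j + y_i`), `check_sound`. -/

namespace Vale.Agent.P038.K4.Chk

/-- nested Horner trees: at level `l`, `n p q` means `p + y_l q` with `p` at level `l - 1` and `q` at
level `l`; `c a b` means the integer `a - b` -/
inductive P
  | z : P
  | c (a b : ℕ) : P
  | n (p q : P) : P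

/-- value of a tree at level `l` -/
noncomputable def ev (y : ℕ → ℝ) : ℕ → P → ℝ
  | _, .z => 0
  | _, .c a b => (a : ℝ) - b
  | l, .n p q => ev y (Nat.sub l 1) p + y l * ev y l q

def addc (a b : ℕ) : P → P
  | .z => .c a b
  | .c a' b' => .c (Nat.add a a') (Nat.add b b')
  | .n p q => .n (addc a b p) q

def add : P → P → P
  | .z, t => t
  | .c a b, t => addc a b t
  | .n p q, t => match t with
    | .z => .n p q
    | .c a b => .n (addc a b p) q
    | .n p' q' => .n (add p p') (add q q')

/-- `(a - b) y_j` at level `l` -/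
def mc (j a b : ℕ) : ℕ → P
  | 0 => .n .z (.c a b)
  | l + 1 => cond (Nat.beq j (l + 1)) (.n .z (.c a b)) (.n (mc j a b l) .z)

/-- multiplication by `y_j` at level `l` -/
def mv (j : ℕ) : ℕ → P → P
  | _, .z => .z
  | l, .c a b => mc j a b l
  | l, .n p q => cond (Nat.beq j l) (.n .z (.n p q)) (.n (mv j (Nat.sub l 1) p) (mv j l q))

def neg : P → P
  | .z => .z
  | .c a b => .c b a
  | .n p q => .n (neg p) (neg q)

def smul (a b : ℕ) : P → P
  | .z => .z
  | .c a' b' => .c (Nat.add (Nat.mul a a') (Nat.mul b b')) (Nat.add (Nat.mul a b') (Nat.mul b a'))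
  | .n p q => .n (smul a b p) (smul a b q)

/-- product of a tree at level `l` and `G` at level `K` -/
def mulT (K : ℕ) (G : P) : ℕ → P → P
  | _, .z => .z
  | _, .c a b => smul a b G
  | l, .n p q => add (mulT K G (Nat.sub l 1) p) (mv l K (mulT K G l q))

/-- `y_i := y_i + y_j`, `j < i` -/
def sd (i j : ℕ) : ℕ → P → P
  | _, .z => .z
  | _, .c a b => .c a b
  | l, .n p q => cond (Nat.beq l i)
      (add (.n p (sd i j l q)) (mv j l (sd i j l q)))
      (.n (sd i j (Nat.sub l 1) p) (sd i j l q))

def mapz : List P → List P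
  | [] => []
  | b :: bs => .n .z b :: mapz bs

def mapl : List P → List P
  | [] => []
  | b :: bs => .n b .z :: mapl bs

def zipN : List P → List P → List P
  | [], bs => mapz bs
  | a :: as, bs => match bs with
    | [] => .n a .z :: mapl as
    | b :: bs => .n a b :: zipN as bs

def addL : List P → List P → List P
  | [], bs => bs
  | a :: as, bs => match bs with
    | [] => a :: as
    | b :: bs => add a b :: addL as bs

/-- Taylor coefficients in `x` of `F(y_i + x)` -/
def tay (i : ℕ) : ℕ → P → List P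
  | _, .z => []
  | _, .c a b => [.c a b]
  | l, .n p q => cond (Nat.beq l i)
      (addL (mapz (tay i l q)) (.n p .z :: tay i l q))
      (zipN (tay i (Nat.sub l 1) p) (tay i l q))

def toT : List P → P
  | [] => .z
  | t :: ts => .n t (toT ts)

/-- `y_i := y_i + y_j`, `i < j` -/
def su (i j : ℕ) : ℕ → P → P
  | _, .z => .z
  | _, .c a b => .c a b
  | l, .n p q => cond (Nat.beq l j)
      (add (toT (tay i (Nat.sub l 1) p)) (.n .z (su i j l q)))
      (.n (su i j (Nat.sub l 1) p) (su i j l q))

/-- all coefficients nonnegative -/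
def nn : P → Bool
  | .z => true
  | .c a b => Nat.ble b a
  | .n p q => cond (nn p) (nn q) false

/-- smart node -/
def node : P → P → P
  | .z, .z => .z
  | p, q => .n p q

/-- normalise the coefficients and prune zeros -/
def norm : P → P
  | .z => .z
  | .c a b => cond (Nat.beq a b) .z (.c (Nat.sub a b) (Nat.sub b a))
  | .n p q => node (norm p) (norm q)

/-- integer polynomial expressions -/
inductive Ex
  | v (i : ℕ) : Ex
  | k (a : ℕ) : Ex
  | add (s t : Ex) : Ex
  | sub (s t : Ex) : Ex
  | mul (s t : Ex) : Ex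

noncomputable def Ex.eval (y : ℕ → ℝ) : Ex → ℝ
  | .v i => y i
  | .k a => (a : ℝ)
  | .add s t => s.eval y + t.eval y
  | .sub s t => s.eval y - t.eval y
  | .mul s t => s.eval y * t.eval y

def Ex.ok (K : ℕ) : Ex → Bool
  | .v i => Nat.ble i K
  | .k _ => true
  | .add s t => cond (s.ok K) (t.ok K) false
  | .sub s t => cond (s.ok K) (t.ok K) false
  | .mul s t => cond (s.ok K) (t.ok K) false

def Ex.toP (K : ℕ) : Ex → P
  | .v i => mc i 1 0 K
  | .k a => .c a 0
  | .add s t => Chk.add (s.toP K) (t.toP K)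
  | .sub s t => Chk.add (s.toP K) (neg (t.toP K))
  | .mul s t => mulT K (t.toP K) K (s.toP K)

/-- certificates -/
inductive Tr
  | lf : Tr
  | nd (i j : ℕ) (t1 t2 : Tr) : Tr

def chk (K : ℕ) : Tr → P → Bool
  | .lf, F => nn F
  | .nd i j t1 t2, F =>
    cond (Nat.ble 1 i) (cond (Nat.ble 1 j) (cond (Nat.ble i K) (cond (Nat.ble j K)
      (cond (Nat.ble (Nat.succ j) i)
        (cond (chk K t1 (sd i j K F)) (chk K t2 (su j i K F)) false)
        (cond (Nat.ble (Nat.succ i) j)
          (cond (chk K t1 (su i j K F)) (chk K t2 (sd j i K F)) false) false))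
      false) false) false) false

def check (K : ℕ) (e : Ex) (t : Tr) : Bool :=
  cond (e.ok K) (chk K t (norm (e.toP K))) false

/-! ## soundness -/

theorem beq_false' {a b : ℕ} (h : a ≠ b) : Nat.beq a b = false := by
  cases hb : Nat.beq a b
  · rfl
  · exact absurd (Nat.eq_of_beq_eq_true hb) h

theorem cond_of {b : Bool} {x : Bool} (h : cond b x false = true) : b = true ∧ x = true := by
  cases b
  · simp at h
  · exact ⟨rfl, h⟩

@[simp] theorem ev_z (y : ℕ → ℝ) (l : ℕ) : ev y l .z = 0 := by simp [ev]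
@[simp] theorem ev_c (y : ℕ → ℝ) (l a b : ℕ) : ev y l (.c a b) = (a : ℝ) - b := by simp [ev]
@[simp] theorem ev_n (y : ℕ → ℝ) (l : ℕ) (p q : P) :
    ev y l (.n p q) = ev y (l - 1) p + y l * ev y l q := by simp [ev]

theorem ev_congr {y y' : ℕ → ℝ} (t : P) : ∀ l : ℕ, (∀ m ≤ l, y m = y' m) → ev y l t = ev y' l t := by
  induction t with
  | z => intro l _; simp
  | c a b => intro l _; simp
  | n p q ihp ihq =>
    intro l h
    rw [ev_n, ev_n, ihp (l - 1) (fun m hm => h m (by omega)), ihq l h, h l le_rfl]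

theorem ev_addc (y : ℕ → ℝ) (a b : ℕ) (t : P) : ∀ l : ℕ,
    ev y l (addc a b t) = ((a : ℝ) - b) + ev y l t := by
  induction t with
  | z => intro l; simp [addc]
  | c a' b' => intro l; simp [addc]; ring
  | n p q ihp ihq => intro l; simp only [addc, ev_n, ihp]; ring

theorem ev_add (y : ℕ → ℝ) (s : P) : ∀ (t : P) (l : ℕ), ev y l (add s t) = ev y l s + ev y l t := by
  induction s with
  | z => intro t l; simp [add]
  | c a b => intro t l; simp only [add, ev_addc, ev_c]
  | n p q ihp ihq =>
    intro t l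
    cases t with
    | z => simp [add]
    | c a b => simp only [add, ev_n, ev_addc, ev_c]; ring
    | n p' q' => simp only [add, ev_n, ihp, ihq]; ring

theorem ev_mc (y : ℕ → ℝ) (j a b : ℕ) : ∀ l : ℕ, j ≤ l → ev y l (mc j a b l) = y j * ((a : ℝ) - b)
  | 0, h => by
    have : j = 0 := by omega
    subst this
    simp [mc]
  | l + 1, h => by
    by_cases hj : j = l + 1
    · subst hj
      simp [mc]
    · have h1 : Nat.beq j (l + 1) = false := beq_false' hj
      rw [mc, h1, cond_false, ev_n, Nat.add_sub_cancel, ev_mc y j a b l (by omega)]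
      simp

theorem ev_mv (y : ℕ → ℝ) (j : ℕ) (t : P) : ∀ l : ℕ, j ≤ l → ev y l (mv j l t) = y j * ev y l t := by
  induction t with
  | z => intro l _; simp [mv]
  | c a b => intro l h; rw [mv, ev_mc y j a b l h, ev_c]
  | n p q ihp ihq =>
    intro l h
    by_cases hj : j = l
    · subst hj
      simp [mv]
    · have h1 : Nat.beq j l = false := beq_false' hj
      rw [mv, h1, cond_false, ev_n, ev_n]
      have h2 : Nat.sub l 1 = l - 1 := rfl
      rw [h2, ihp (l - 1) (by omega), ihq l h]
      ring

theorem ev_neg (y : ℕ → ℝ) (t : P) : ∀ l : ℕ, ev y l (neg t) = - ev y l t := by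
  induction t with
  | z => intro l; simp [neg]
  | c a b => intro l; simp [neg]
  | n p q ihp ihq => intro l; simp only [neg, ev_n, ihp, ihq]; ring

theorem ev_smul (y : ℕ → ℝ) (a b : ℕ) (t : P) : ∀ l : ℕ,
    ev y l (smul a b t) = ((a : ℝ) - b) * ev y l t := by
  induction t with
  | z => intro l; simp [smul]
  | c a' b' => intro l; simp [smul]; ring
  | n p q ihp ihq => intro l; simp only [smul, ev_n, ihp, ihq]; ring

theorem ev_mulT (y : ℕ → ℝ) (K : ℕ) (G t : P) : ∀ l : ℕ, l ≤ K →
    ev y K (mulT K G l t) = ev y l t * ev y K G := by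
  induction t with
  | z => intro l _; simp [mulT]
  | c a b => intro l _; rw [mulT, ev_smul, ev_c]
  | n p q ihp ihq =>
    intro l h
    have h2 : Nat.sub l 1 = l - 1 := rfl
    rw [mulT, ev_add, ev_mv y l _ K h, h2, ihp (l - 1) (by omega), ihq l h, ev_n]
    ring

/-- the substitution -/
noncomputable def up (y : ℕ → ℝ) (i : ℕ) (x : ℝ) : ℕ → ℝ := fun m => if m = i then y i + x else y m

theorem up_self (y : ℕ → ℝ) (i : ℕ) (x : ℝ) : up y i x i = y i + x := by simp [up]
theorem up_ne (y : ℕ → ℝ) {i m : ℕ} (x : ℝ) (h : m ≠ i) : up y i x m = y m := by simp [up, h]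

theorem ev_sd (y : ℕ → ℝ) (i j : ℕ) (hji : j < i) (t : P) : ∀ l : ℕ, i ≤ l →
    ev y l (sd i j l t) = ev (up y i (y j)) l t := by
  induction t with
  | z => intro l _; simp [sd]
  | c a b => intro l _; simp [sd]
  | n p q ihp ihq =>
    intro l h
    have h2 : Nat.sub l 1 = l - 1 := rfl
    by_cases hl : l = i
    · subst hl
      have h1 : Nat.beq l l = true := by simp
      rw [sd, h1, cond_true, ev_add, ev_mv y j _ l (by omega), ev_n, ev_n, ihq l le_rfl, up_self,
        ev_congr (y := up y l (y j)) (y' := y) p (l - 1) (fun m hm => up_ne y _ (by omega))]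
      ring
    · have h1 : Nat.beq l i = false := beq_false' hl
      rw [sd, h1, cond_false, ev_n, ev_n, h2, ihp (l - 1) (by omega), ihq l h, up_ne y _ hl]

noncomputable def evL (y : ℕ → ℝ) (l : ℕ) (x : ℝ) : List P → ℝ
  | [] => 0
  | t :: ts => ev y l t + x * evL y l x ts

theorem evL_mapz (y : ℕ → ℝ) (l : ℕ) (x : ℝ) (ts : List P) :
    evL y l x (mapz ts) = y l * evL y l x ts := by
  induction ts with
  | nil => simp [mapz, evL]
  | cons t ts ih => simp only [mapz, evL, ih, ev_n, ev_z]; ring

theorem evL_mapl (y : ℕ → ℝ) (l : ℕ) (x : ℝ) (ts : List P) :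
    evL y l x (mapl ts) = evL y (l - 1) x ts := by
  induction ts with
  | nil => simp [mapl, evL]
  | cons t ts ih => simp only [mapl, evL, ih, ev_n, ev_z]; ring

theorem evL_zipN (y : ℕ → ℝ) (l : ℕ) (x : ℝ) (as : List P) : ∀ bs : List P,
    evL y l x (zipN as bs) = evL y (l - 1) x as + y l * evL y l x bs := by
  induction as with
  | nil => intro bs; simp only [zipN, evL_mapz, evL]; ring
  | cons a as ih =>
    intro bs
    cases bs with
    | nil => simp only [zipN, evL, ev_n, ev_z, evL_mapl]; ring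
    | cons b bs => simp only [zipN, evL, ev_n, ih]; ring

theorem evL_addL (y : ℕ → ℝ) (l : ℕ) (x : ℝ) (as : List P) : ∀ bs : List P,
    evL y l x (addL as bs) = evL y l x as + evL y l x bs := by
  induction as with
  | nil => intro bs; simp only [addL, evL]; ring
  | cons a as ih =>
    intro bs
    cases bs with
    | nil => simp only [addL, evL]; ring
    | cons b bs => simp only [addL, evL, ev_add, ih]; ring

theorem evL_tay (y : ℕ → ℝ) (i : ℕ) (hi : 1 ≤ i) (x : ℝ) (t : P) : ∀ l : ℕ, i ≤ l →
    evL y l x (tay i l t) = ev (up y i x) l t := by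
  induction t with
  | z => intro l _; simp [tay, evL]
  | c a b => intro l _; simp [tay, evL]
  | n p q ihp ihq =>
    intro l h
    have h2 : Nat.sub l 1 = l - 1 := rfl
    by_cases hl : l = i
    · subst hl
      have h1 : Nat.beq l l = true := by simp
      rw [tay, h1, cond_true, evL_addL, evL_mapz, evL, ev_n, ev_n, ihq l le_rfl, up_self, ev_z,
        ev_congr (y := up y l x) (y' := y) p (l - 1) (fun m hm => up_ne y _ (by omega))]
      ring
    · have h1 : Nat.beq l i = false := beq_false' hl
      rw [tay, h1, cond_false, evL_zipN, ev_n, h2, ihp (l - 1) (by omega), ihq l h, up_ne y _ hl]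

theorem ev_toT (y : ℕ → ℝ) (l : ℕ) (ts : List P) :
    ev y l (toT ts) = evL y (l - 1) (y l) ts := by
  induction ts with
  | nil => simp [toT, evL]
  | cons t ts ih => simp only [toT, evL, ev_n, ih]

theorem ev_su (y : ℕ → ℝ) (i j : ℕ) (hi : 1 ≤ i) (hij : i < j) (t : P) : ∀ l : ℕ, j ≤ l →
    ev y l (su i j l t) = ev (up y i (y j)) l t := by
  induction t with
  | z => intro l _; simp [su]
  | c a b => intro l _; simp [su]
  | n p q ihp ihq =>
    intro l h
    have h2 : Nat.sub l 1 = l - 1 := rfl
    by_cases hl : l = j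
    · subst hl
      have h1 : Nat.beq l l = true := by simp
      rw [su, h1, cond_true, ev_add, ev_toT, h2, evL_tay y i hi _ p (l - 1) (by omega), ev_n, ev_n,
        ihq l le_rfl, ev_z, up_ne y _ (by omega : l ≠ i)]
      ring
    · have h1 : Nat.beq l j = false := beq_false' hl
      rw [su, h1, cond_false, ev_n, ev_n, h2, ihp (l - 1) (by omega), ihq l h,
        up_ne y _ (by omega : l ≠ i)]

theorem ev_nonneg {y : ℕ → ℝ} (hy : ∀ i, 0 ≤ y i) (t : P) : ∀ l : ℕ, nn t = true → 0 ≤ ev y l t := by
  induction t with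
  | z => intro l _; simp
  | c a b =>
    intro l h
    have h1 : b ≤ a := Nat.le_of_ble_eq_true h
    rw [ev_c]
    have : (b : ℝ) ≤ a := by exact_mod_cast h1
    linarith
  | n p q ihp ihq =>
    intro l h
    obtain ⟨h1, h2⟩ := cond_of h
    rw [ev_n]
    have := ihp (l - 1) h1
    have := mul_nonneg (hy l) (ihq l h2)
    linarith

theorem ev_node (y : ℕ → ℝ) (l : ℕ) (p q : P) : ev y l (node p q) = ev y l (.n p q) := by
  cases p <;> cases q <;> simp [node]

theorem ev_norm (y : ℕ → ℝ) (t : P) : ∀ l : ℕ, ev y l (norm t) = ev y l t := by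
  induction t with
  | z => intro l; simp [norm]
  | c a b =>
    intro l
    by_cases h : a = b
    · subst h
      simp [norm]
    · have h1 : Nat.beq a b = false := beq_false' h
      rw [norm, h1, cond_false, ev_c, ev_c]
      have e1 : Nat.sub a b = a - b := rfl
      have e2 : Nat.sub b a = b - a := rfl
      rw [e1, e2]
      rcases le_total a b with h' | h'
      · rw [Nat.sub_eq_zero_of_le h', Nat.cast_sub h']; push_cast; ring
      · rw [Nat.sub_eq_zero_of_le h', Nat.cast_sub h']; push_cast; ring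
  | n p q ihp ihq => intro l; rw [norm, ev_node, ev_n, ev_n, ihp, ihq]

theorem ev_toP (y : ℕ → ℝ) (K : ℕ) (e : Ex) (h : e.ok K = true) : ev y K (e.toP K) = e.eval y := by
  induction e with
  | v i =>
    have h1 : i ≤ K := Nat.le_of_ble_eq_true h
    rw [Ex.toP, ev_mc y i 1 0 K h1, Ex.eval]; simp
  | k a => rw [Ex.toP, ev_c, Ex.eval]; simp
  | add s t ihs iht =>
    obtain ⟨h1, h2⟩ := cond_of h
    rw [Ex.toP, ev_add, ihs h1, iht h2, Ex.eval]
  | sub s t ihs iht =>
    obtain ⟨h1, h2⟩ := cond_of h
    rw [Ex.toP, ev_add, ev_neg, ihs h1, iht h2, Ex.eval]; ring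
  | mul s t ihs iht =>
    obtain ⟨h1, h2⟩ := cond_of h
    rw [Ex.toP, ev_mulT y K _ _ K le_rfl, ihs h1, iht h2, Ex.eval]

theorem chk_sound (K : ℕ) (t : Tr) : ∀ (F : P), chk K t F = true →
    ∀ y : ℕ → ℝ, (∀ i, 0 ≤ y i) → 0 ≤ ev y K F := by
  induction t with
  | lf => intro F h y hy; exact ev_nonneg hy F K h
  | nd i j t1 t2 ih1 ih2 =>
    intro F h y hy
    rw [chk] at h
    obtain ⟨hi, h⟩ := cond_of h
    obtain ⟨hj, h⟩ := cond_of h
    obtain ⟨hiK, h⟩ := cond_of h
    obtain ⟨hjK, h⟩ := cond_of h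
    have hi := Nat.le_of_ble_eq_true hi
    have hj := Nat.le_of_ble_eq_true hj
    have hiK := Nat.le_of_ble_eq_true hiK
    have hjK := Nat.le_of_ble_eq_true hjK
    have key : ∀ a b : ℕ, a ≠ b → y b ≤ y a → ∀ F' : P,
        (∀ y' : ℕ → ℝ, ev y' K F' = ev (up y' a (y' b)) K F) →
        (∀ y' : ℕ → ℝ, (∀ i, 0 ≤ y' i) → 0 ≤ ev y' K F') → 0 ≤ ev y K F := by
      intro a b hab hba F' hF' hpos
      have hy' : ∀ m, 0 ≤ up y a (-y b) m := by
        intro m
        by_cases hm : m = a
        · subst hm; rw [up_self]; linarith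
        · rw [up_ne y _ hm]; exact hy m
      have h1 := hpos _ hy'
      rw [hF'] at h1
      have h2 : up (up y a (-y b)) a (up y a (-y b) b) = y := by
        funext m
        by_cases hm : m = a
        · subst hm; rw [up_self, up_self, up_ne y _ (Ne.symm hab)]; ring
        · rw [up_ne _ _ hm, up_ne _ _ hm]
      rwa [h2] at h1
    by_cases hc : j < i
    · have h0 : Nat.ble (Nat.succ j) i = true := Nat.ble_eq_true_of_le hc
      rw [h0, cond_true] at h
      obtain ⟨h1, h2⟩ := cond_of h
      rcases le_total (y j) (y i) with hle | hle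
      · exact key i j (by omega) hle _ (fun y' => ev_sd y' i j hc F K hiK) (fun y' h' => ih1 _ h1 y' h')
      · exact key j i (by omega) hle _ (fun y' => ev_su y' j i hj hc F K hiK) (fun y' h' => ih2 _ h2 y' h')
    · have h0 : Nat.ble (Nat.succ j) i = false := by
        cases hb : Nat.ble (Nat.succ j) i
        · rfl
        · exact absurd (Nat.le_of_ble_eq_true hb) (by omega)
      rw [h0, cond_false] at h
      obtain ⟨hij, h⟩ := cond_of h
      have hij : i < j := Nat.le_of_ble_eq_true hij
      obtain ⟨h1, h2⟩ := cond_of h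
      rcases le_total (y j) (y i) with hle | hle
      · exact key i j (by omega) hle _ (fun y' => ev_su y' i j hi hij F K hjK) (fun y' h' => ih1 _ h1 y' h')
      · exact key j i (by omega) hle _ (fun y' => ev_sd y' j i hij F K hjK) (fun y' h' => ih2 _ h2 y' h')

/-- SOUNDNESS: a checked certificate proves nonnegativity on the orthant. -/
theorem check_sound (K : ℕ) (e : Ex) (t : Tr) (h : check K e t = true) :
    ∀ y : ℕ → ℝ, (∀ i, 0 ≤ y i) → 0 ≤ e.eval y := by
  intro y hy
  obtain ⟨h1, h2⟩ := cond_of h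
  rw [← ev_toP y K e h1, ← ev_norm]
  exact chk_sound K t _ h2 y hy

end Vale.Agent.P038.K4.Chk
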