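import Vale.Agent.P038.K4.ChkG

/-! # P038/K4/ChkF : `LowForm`, `HighForm` from checked certificates. -/

namespace Vale.Agent.P038.K4.Chk

/-- the assignment of the nine variables -/
def yy (ph s r ep m b e0 e1 z : ℝ) : ℕ → ℝ
  | 1 => ph
  | 2 => s
  | 3 => r
  | 4 => ep
  | 5 => m
  | 6 => b
  | 7 => e0
  | 8 => e1
  | 9 => z
  | _ => 0

theorem yy_nonneg {ph s r ep m b e0 e1 z : ℝ} (h1 : 0 ≤ ph) (h2 : 0 ≤ s) (h3 : 0 ≤ r) (h4 : 0 ≤ ep)
    (h5 : 0 ≤ m) (h6 : 0 ≤ b) (h7 : 0 ≤ e0) (h8 : 0 ≤ e1) (h9 : 0 ≤ z) (i : ℕ) :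
    0 ≤ yy ph s r ep m b e0 e1 z i := by
  unfold yy
  split <;> first | assumption | exact le_rfl

theorem eval_x9 (la : Ex) (tc hc : ℕ) (ph s r ep m b e0 e1 z : ℝ) :
    (x9 la tc hc).eval (yy ph s r ep m b e0 e1 z)
      = 5000 * Form9 (la.eval (yy ph s r ep m b e0 e1 z))
        (if tc = 0 then 0 else ph + s + r + ep + e0 + z)
        (if tc = 2 then ph + s + r + ep + e0 + z else 0) (if hc = 0 then 0 else s + ep)
        ph s r ep m b e0 e1 z := by
  have a1 : (cond (Nat.beq tc 0) (Ex.k 0) (sm [1, 2, 3, 4, 7, 9])).eval (yy ph s r ep m b e0 e1 z)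
      = if tc = 0 then 0 else ph + s + r + ep + e0 + z := by
    by_cases h : tc = 0
    · subst h; simp [Ex.eval]
    · rw [beq_false' h, cond_false, if_neg h]; simp only [sm, Ex.eval, yy]; ring
  have a2 : (cond (Nat.beq tc 2) (sm [1, 2, 3, 4, 7, 9]) (Ex.k 0)).eval (yy ph s r ep m b e0 e1 z)
      = if tc = 2 then ph + s + r + ep + e0 + z else 0 := by
    by_cases h : tc = 2
    · subst h; simp only [sm, Ex.eval, yy, Nat.beq, cond_true, if_true]; ring
    · rw [beq_false' h, cond_false, if_neg h]; simp [Ex.eval]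
  have a3 : (cond (Nat.beq hc 0) (Ex.v 6) (sm [6, 2, 4])).eval (yy ph s r ep m b e0 e1 z)
      = b + if hc = 0 then 0 else s + ep := by
    by_cases h : hc = 0
    · subst h; simp [Ex.eval, yy]
    · rw [beq_false' h, cond_false, if_neg h]; simp only [sm, Ex.eval, yy]
  rw [x9, eval_xForm, a1, a2, a3, Form9]
  have b1 : (sm [1, 2, 2, 3, 4, 4, 5, 6, 7, 8, 9]).eval (yy ph s r ep m b e0 e1 z)
      = ph + 2 * s + r + 2 * ep + m + b + e0 + e1 + z := by
    simp only [sm, Ex.eval, yy]; ring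
  have b2 : (sm [1, 2, 3, 4, 7]).eval (yy ph s r ep m b e0 e1 z) = ph + s + r + ep + e0 := by
    simp only [sm, Ex.eval, yy]; ring
  have b3 : (sm [5, 6, 2, 4, 8]).eval (yy ph s r ep m b e0 e1 z) = m + b + s + ep + e1 := by
    simp only [sm, Ex.eval, yy]; ring
  have b4 : (sm [1, 2]).eval (yy ph s r ep m b e0 e1 z) = ph + s := by
    simp only [sm, Ex.eval, yy]
  have b5 : (sm [1, 2, 3, 4]).eval (yy ph s r ep m b e0 e1 z) = ph + s + r + ep := by
    simp only [sm, Ex.eval, yy]; ring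
  have b6 : (sm [5, 6, 2, 4]).eval (yy ph s r ep m b e0 e1 z) = m + b + s + ep := by
    simp only [sm, Ex.eval, yy]; ring
  rw [b1, b2, b3, b4, b5, b6]
  simp only [Ex.eval, yy]

theorem low_of (tc hc : ℕ) (T : Tr) (h : checkG 9 (x9 (.k 0) tc hc) gLow T = true) :
    LowForm tc hc := by
  intro ph s r ep m b e0 e1 z h1 h2 h3 h4 h5 h6 h7 h8 h9 hg
  have key := checkG_sound' 9 _ _ T h (fun _ => 1) (fun _ => zero_le_one)
    (by
      intro y t ht h0
      simp only [gLow, sm, Ex.eval] at h0 ⊢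
      linarith)
    (yy ph s r ep m b e0 e1 z) (yy_nonneg h1 h2 h3 h4 h5 h6 h7 h8 h9)
    (by simp only [gLow, sm, Ex.eval, yy]; linarith)
  rw [eval_x9] at key
  simp only [Ex.eval, Nat.cast_zero] at key
  linarith

theorem high_of (tc hc : ℕ) (T : Tr) (h : checkG 9 (x9 gHigh tc hc) gHigh T = true) :
    HighForm tc hc := by
  intro ph s r ep m b e0 e1 z h1 h2 h3 h4 h5 h6 h7 h8 h9 hg
  have key := checkG_sound' 9 _ _ T h (fun i => if i = 1 ∨ i = 3 ∨ i = 7 then 2 else 1)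
    (fun i => by split_ifs <;> norm_num)
    (by
      intro y t ht h0
      simp only [gHigh, sm, Ex.eval] at h0 ⊢
      norm_num
      linarith)
    (yy ph s r ep m b e0 e1 z) (yy_nonneg h1 h2 h3 h4 h5 h6 h7 h8 h9)
    (by simp only [gHigh, sm, Ex.eval, yy]; linarith)
  rw [eval_x9] at key
  have e : gHigh.eval (yy ph s r ep m b e0 e1 z) = ph + r + e0 - (m + b + e1 + z) := by
    simp only [gHigh, sm, Ex.eval, yy]; ring
  rw [e] at key
  linarith

end Vale.Agent.P038.K4.Chk
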