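import Mathlib

/-!
# P038, K4-free case: the homogeneous quartic forms behind the local inequality

Nine nonnegative variables `ph s r ep m b e0 e1 z`, total mass
`sg = ph + 2 s + r + 2 ep + m + b + e0 + e1 + z` (equal to `1` in the application).
-/

namespace Vale.Agent.P038.K4

/-- the potential, homogenised to degree 3 by `sg` -/
noncomputable def Ph (sg x n f y f' : ℝ) : ℝ :=
  f * (99 / 100 * sg ^ 2 - 19 / 50 * x * sg - 87 / 100 * y * sg - 141 / 100 * x ^ 2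
    + 39 / 100 * x * y) + f' * (63 / 50 * x * sg - 17 / 100 * x ^ 2) + 14 / 25 * f * f' * sg
    - (47 / 100 * sg + 21 / 100 * x) * n ^ 2 + 103 / 100 * n * f * sg + 13 / 50 * n * f' * sg
    - 7 / 25 * f ^ 2 * sg - 12 / 25 * x * n * f'

/-- `q0 * N`, homogenised to degree 4 by `sg`; `la` is `0` or `2 x0 - sg`, `t = p = f2` -/
noncomputable def Form (sg la x0 x1 x2 f0 n0 n1 m b ph ep f1 t : ℝ) : ℝ :=
  sg * (sg - la) * ((sg - n0) * (f0 + ep) + b * (sg - n0 - x0) + m * (3 / 4 * m - ph) - x1 * t)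
    + sg * la * (sg - n0) * ((x0 - n0) - (x1 - n1))
    - 63 / 50 * n0 ^ 2 * (49 / 100 * x0 * (sg - x0) - x1 * (x1 + x2 + 7 / 5 * x0 - sg))
    + (sg - n0) * (Ph sg x1 n1 f1 x2 t - Ph sg x0 n0 f0 x1 f1)

/-- `Form` in the nine free variables; `x2`, `t`, `h` are the remaining choices
(`h = f1 - b`), `la` the value of the multiplier -/
noncomputable def Form9 (la x2 t h ph s r ep m b e0 e1 z : ℝ) : ℝ :=
  Form (ph + 2 * s + r + 2 * ep + m + b + e0 + e1 + z) la (ph + s + r + ep + e0)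
    (m + b + s + ep + e1) x2 (ph + s) (ph + s + r + ep) (m + b + s + ep) m b ph ep (b + h) t

/-- low regime `x0 ≤ 1/2`: `la = 0` -/
def LowForm (tc hc : ℕ) : Prop :=
  ∀ ph s r ep m b e0 e1 z : ℝ, 0 ≤ ph → 0 ≤ s → 0 ≤ r → 0 ≤ ep → 0 ≤ m → 0 ≤ b → 0 ≤ e0 →
    0 ≤ e1 → 0 ≤ z → ph + r + e0 ≤ m + b + e1 + z →
    0 ≤ Form9 0 (if tc = 0 then 0 else ph + s + r + ep + e0 + z)
      (if tc = 2 then ph + s + r + ep + e0 + z else 0) (if hc = 0 then 0 else s + ep)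
      ph s r ep m b e0 e1 z

/-- high regime `x0 ≥ 1/2`: `la = 2 x0 - sg = ph + r + e0 - (m + b + e1 + z)` -/
def HighForm (tc hc : ℕ) : Prop :=
  ∀ ph s r ep m b e0 e1 z : ℝ, 0 ≤ ph → 0 ≤ s → 0 ≤ r → 0 ≤ ep → 0 ≤ m → 0 ≤ b → 0 ≤ e0 →
    0 ≤ e1 → 0 ≤ z → m + b + e1 + z ≤ ph + r + e0 →
    0 ≤ Form9 (ph + r + e0 - (m + b + e1 + z)) (if tc = 0 then 0 else ph + s + r + ep + e0 + z)
      (if tc = 2 then ph + s + r + ep + e0 + z else 0) (if hc = 0 then 0 else s + ep)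
      ph s r ep m b e0 e1 z

/-- all twelve forms -/
def FormAll : Prop := ∀ tc hc : ℕ, tc ≤ 2 → hc ≤ 1 → LowForm tc hc ∧ HighForm tc hc

end Vale.Agent.P038.K4
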