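import Vale.Agent.P038.K4.Chk
import Vale.Agent.P038.K4.Form

/-! # P038/K4/ChkG : the kernel checker of `Chk.lean` with a side condition `0 ≤ g`, and the twelve
forms as expressions. -/

namespace Vale.Agent.P038.K4.Chk

open Filter Topology

/-- as `chk`; `G` is the tree of `-g`; a leaf is closed if all coefficients of `F` are nonnegative or
all coefficients of `g` are nonpositive -/
def chkG (K : ℕ) : Tr → P → P → Bool
  | .lf, F, G => cond (nn F) true (nn G)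
  | .nd i j t1 t2, F, G =>
    cond (Nat.ble 1 i) (cond (Nat.ble 1 j) (cond (Nat.ble i K) (cond (Nat.ble j K)
      (cond (Nat.ble (Nat.succ j) i)
        (cond (chkG K t1 (sd i j K F) (sd i j K G)) (chkG K t2 (su j i K F) (su j i K G)) false)
        (cond (Nat.ble (Nat.succ i) j)
          (cond (chkG K t1 (su i j K F) (su i j K G)) (chkG K t2 (sd j i K F) (sd j i K G)) false)
          false))
      false) false) false) false

def checkG (K : ℕ) (e g : Ex) (t : Tr) : Bool :=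
  cond (e.ok K) (cond (g.ok K) (chkG K t (norm (e.toP K)) (norm (neg (g.toP K)))) false) false

theorem chkG_sound (K : ℕ) (t : Tr) : ∀ (F G : P), chkG K t F G = true →
    ∀ y : ℕ → ℝ, (∀ i, 0 ≤ y i) → ev y K G < 0 → 0 ≤ ev y K F := by
  induction t with
  | lf =>
    intro F G h y hy hG
    rw [chkG] at h
    by_cases hF : nn F = true
    · exact ev_nonneg hy F K hF
    · rw [Bool.not_eq_true] at hF
      rw [hF, cond_false] at h
      exact absurd (ev_nonneg hy G K h) (by linarith)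
  | nd i j t1 t2 ih1 ih2 =>
    intro F G h y hy hG
    rw [chkG] at h
    obtain ⟨hi, h⟩ := cond_of h
    obtain ⟨hj, h⟩ := cond_of h
    obtain ⟨hiK, h⟩ := cond_of h
    obtain ⟨hjK, h⟩ := cond_of h
    have hi := Nat.le_of_ble_eq_true hi
    have hj := Nat.le_of_ble_eq_true hj
    have hiK := Nat.le_of_ble_eq_true hiK
    have hjK := Nat.le_of_ble_eq_true hjK
    have key : ∀ a b : ℕ, a ≠ b → y b ≤ y a → ∀ F' G' : P,
        (∀ y' : ℕ → ℝ, ev y' K F' = ev (up y' a (y' b)) K F) →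
        (∀ y' : ℕ → ℝ, ev y' K G' = ev (up y' a (y' b)) K G) →
        (∀ y' : ℕ → ℝ, (∀ i, 0 ≤ y' i) → ev y' K G' < 0 → 0 ≤ ev y' K F') → 0 ≤ ev y K F := by
      intro a b hab hba F' G' hF' hG' hpos
      have hy' : ∀ m, 0 ≤ up y a (-y b) m := by
        intro m
        by_cases hm : m = a
        · subst hm; rw [up_self]; linarith
        · rw [up_ne y _ hm]; exact hy m
      have h2 : up (up y a (-y b)) a (up y a (-y b) b) = y := by
        funext m
        by_cases hm : m = a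
        · subst hm; rw [up_self, up_self, up_ne y _ (Ne.symm hab)]; ring
        · rw [up_ne _ _ hm, up_ne _ _ hm]
      have h1 := hpos _ hy' (by rw [hG', h2]; exact hG)
      rw [hF'] at h1
      rwa [h2] at h1
    by_cases hc : j < i
    · have h0 : Nat.ble (Nat.succ j) i = true := Nat.ble_eq_true_of_le hc
      rw [h0, cond_true] at h
      obtain ⟨h1, h2⟩ := cond_of h
      rcases le_total (y j) (y i) with hle | hle
      · exact key i j (by omega) hle _ _ (fun y' => ev_sd y' i j hc F K hiK)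
          (fun y' => ev_sd y' i j hc G K hiK) (fun y' h' => ih1 _ _ h1 y' h')
      · exact key j i (by omega) hle _ _ (fun y' => ev_su y' j i hj hc F K hiK)
          (fun y' => ev_su y' j i hj hc G K hiK) (fun y' h' => ih2 _ _ h2 y' h')
    · have h0 : Nat.ble (Nat.succ j) i = false := by
        cases hb : Nat.ble (Nat.succ j) i
        · rfl
        · exact absurd (Nat.le_of_ble_eq_true hb) (by omega)
      rw [h0, cond_false] at h
      obtain ⟨hij, h⟩ := cond_of h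
      have hij : i < j := Nat.le_of_ble_eq_true hij
      obtain ⟨h1, h2⟩ := cond_of h
      rcases le_total (y j) (y i) with hle | hle
      · exact key i j (by omega) hle _ _ (fun y' => ev_su y' i j hi hij F K hjK)
          (fun y' => ev_su y' i j hi hij G K hjK) (fun y' h' => ih1 _ _ h1 y' h')
      · exact key j i (by omega) hle _ _ (fun y' => ev_sd y' j i hij F K hjK)
          (fun y' => ev_sd y' j i hij G K hjK) (fun y' h' => ih2 _ _ h2 y' h')

theorem checkG_sound (K : ℕ) (e g : Ex) (t : Tr) (h : checkG K e g t = true) :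
    ∀ y : ℕ → ℝ, (∀ i, 0 ≤ y i) → 0 < g.eval y → 0 ≤ e.eval y := by
  intro y hy hg
  obtain ⟨h1, h⟩ := cond_of h
  obtain ⟨h2, h3⟩ := cond_of h
  rw [← ev_toP y K e h1, ← ev_norm]
  refine chkG_sound K t _ _ h3 y hy ?_
  rw [ev_norm, ev_neg, ev_toP y K g h2]
  linarith

theorem continuous_eval (e : Ex) (y w : ℕ → ℝ) :
    Continuous fun t : ℝ => e.eval (fun i => y i + t * w i) := by
  induction e with
  | v i => simp only [Ex.eval]; fun_prop
  | k a => simp only [Ex.eval]; fun_prop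
  | add s t ihs iht => simp only [Ex.eval]; exact ihs.add iht
  | sub s t ihs iht => simp only [Ex.eval]; exact ihs.sub iht
  | mul s t ihs iht => simp only [Ex.eval]; exact ihs.mul iht

/-- closed version: `w` is a direction of increase of `g` -/
theorem checkG_sound' (K : ℕ) (e g : Ex) (T : Tr) (h : checkG K e g T = true) (w : ℕ → ℝ)
    (hw : ∀ i, 0 ≤ w i)
    (hg : ∀ (y : ℕ → ℝ) (t : ℝ), 0 < t → 0 ≤ g.eval y → 0 < g.eval (fun i => y i + t * w i)) :
    ∀ y : ℕ → ℝ, (∀ i, 0 ≤ y i) → 0 ≤ g.eval y → 0 ≤ e.eval y := by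
  intro y hy h0
  have hc := (continuous_eval e y w).tendsto 0
  have hc' : Tendsto (fun t : ℝ => e.eval (fun i => y i + t * w i)) (𝓝[>] 0)
      (𝓝 (e.eval y)) := by
    have : (fun i => y i + 0 * w i) = y := by funext i; ring
    rw [this] at hc
    exact hc.mono_left nhdsWithin_le_nhds
  refine ge_of_tendsto hc' ?_
  filter_upwards [self_mem_nhdsWithin] with t ht
  have ht : 0 < t := ht
  exact checkG_sound K e g T h _ (fun i => add_nonneg (hy i) (mul_nonneg ht.le (hw i))) (hg y t ht h0)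


/-! ## the forms -/

/-- `5000 * Ph` -/
def xPh (sg x n f y f' : Ex) : Ex :=
  Ex.add (Ex.sub (Ex.add (Ex.sub (Ex.add (Ex.add (Ex.mul f (Ex.sub (Ex.sub (Ex.sub (Ex.add (Ex.mul (Ex.k 4950) (Ex.mul sg sg)) (Ex.mul (Ex.k 1950) (Ex.mul x y)))
        (Ex.mul (Ex.k 1900) (Ex.mul x sg))) (Ex.mul (Ex.k 4350) (Ex.mul y sg))) (Ex.mul (Ex.k 7050) (Ex.mul x x))))
      (Ex.mul f' (Ex.sub (Ex.mul (Ex.k 6300) (Ex.mul x sg)) (Ex.mul (Ex.k 850) (Ex.mul x x)))))
    (Ex.mul (Ex.k 2800) (Ex.mul sg (Ex.mul f f'))))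
    (Ex.mul (Ex.add (Ex.mul (Ex.k 2350) sg) (Ex.mul (Ex.k 1050) x)) (Ex.mul n n)))
    (Ex.mul (Ex.k 5150) (Ex.mul sg (Ex.mul n f))))
    (Ex.mul (Ex.k 1400) (Ex.mul sg (Ex.mul f f))))
    (Ex.sub (Ex.mul (Ex.k 1300) (Ex.mul sg (Ex.mul n f'))) (Ex.mul (Ex.k 2400) (Ex.mul x (Ex.mul n f'))))

/-- `5000 * Form` -/
def xForm (sg la x0 x1 x2 f0 n0 n1 m b ph ep f1 t : Ex) : Ex :=
  Ex.add (Ex.sub (Ex.add
    (Ex.mul (Ex.sub sg la) (Ex.mul sg (Ex.sub (Ex.add (Ex.add (Ex.mul (Ex.k 5000) (Ex.mul (Ex.add f0 ep) (Ex.sub sg n0)))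
        (Ex.mul (Ex.k 5000) (Ex.mul b (Ex.sub (Ex.sub sg n0) x0))))
        (Ex.mul m (Ex.sub (Ex.mul (Ex.k 3750) m) (Ex.mul (Ex.k 5000) ph))))
        (Ex.mul (Ex.k 5000) (Ex.mul x1 t)))))
    (Ex.mul la (Ex.mul sg (Ex.mul (Ex.k 5000) (Ex.mul (Ex.sub sg n0) (Ex.sub (Ex.sub x0 n0) (Ex.sub x1 n1)))))))
    (Ex.mul (Ex.mul n0 n0) (Ex.sub (Ex.sub (Ex.mul (Ex.k 3087) (Ex.mul x0 (Ex.sub sg x0)))
        (Ex.mul (Ex.k 6300) (Ex.mul x1 (Ex.sub (Ex.add x1 x2) sg)))) (Ex.mul (Ex.k 8820) (Ex.mul x0 x1)))))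
    (Ex.mul (Ex.sub sg n0) (Ex.sub (xPh sg x1 n1 f1 x2 t) (xPh sg x0 n0 f0 x1 f1)))

theorem eval_xPh (v : ℕ → ℝ) (sg x n f y f' : Ex) :
    (xPh sg x n f y f').eval v
      = 5000 * Ph (sg.eval v) (x.eval v) (n.eval v) (f.eval v) (y.eval v) (f'.eval v) := by
  simp only [xPh, Ex.eval, Ph]
  push_cast
  ring

theorem eval_xForm (v : ℕ → ℝ) (sg la x0 x1 x2 f0 n0 n1 m b ph ep f1 t : Ex) :
    (xForm sg la x0 x1 x2 f0 n0 n1 m b ph ep f1 t).eval v
      = 5000 * Form (sg.eval v) (la.eval v) (x0.eval v) (x1.eval v) (x2.eval v) (f0.eval v)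
        (n0.eval v) (n1.eval v) (m.eval v) (b.eval v) (ph.eval v) (ep.eval v) (f1.eval v)
        (t.eval v) := by
  simp only [xForm, Ex.eval, eval_xPh, Form]
  push_cast
  ring

/-- sum of variables -/
def sm : List ℕ → Ex
  | [] => .k 0
  | [i] => .v i
  | i :: is => .add (.v i) (sm is)

/-- variables `1 .. 9` = `ph s r ep m b e0 e1 z` -/
def x9 (la : Ex) (tc hc : ℕ) : Ex :=
  xForm (sm [1, 2, 2, 3, 4, 4, 5, 6, 7, 8, 9]) la (sm [1, 2, 3, 4, 7]) (sm [5, 6, 2, 4, 8])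
    (cond (Nat.beq tc 0) (.k 0) (sm [1, 2, 3, 4, 7, 9])) (sm [1, 2]) (sm [1, 2, 3, 4])
    (sm [5, 6, 2, 4]) (.v 5) (.v 6) (.v 1) (.v 4)
    (cond (Nat.beq hc 0) (.v 6) (sm [6, 2, 4]))
    (cond (Nat.beq tc 2) (sm [1, 2, 3, 4, 7, 9]) (.k 0))

/-- `(m + b + e1 + z) - (ph + r + e0)` -/
def gLow : Ex := .sub (sm [5, 6, 8, 9]) (sm [1, 3, 7])

/-- `(ph + r + e0) - (m + b + e1 + z)` -/
def gHigh : Ex := .sub (sm [1, 3, 7]) (sm [5, 6, 8, 9])

end Vale.Agent.P038.K4.Chk
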