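import Vale.Agent.P038.Defs

/-!
# Oriented graphs without four pairwise joined vertices, and a slightly larger class
-/

namespace Vale.Agent.P038.K4

/-- No four pairwise joined vertices. -/
def NoK4 {V : Type*} (D : OGraph V) : Prop :=
  ∀ a b c d, Joined D a b → Joined D a c → Joined D a d → Joined D b c → Joined D b d →
    Joined D c d → False

/-- The two consequences of `NoK4` that are used: no vertex dominates three pairwise joined
vertices, and no four vertices induce a strongly connected tournament. -/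
def NoBadK4 {V : Type*} (D : OGraph V) : Prop :=
  NoOutTriangle D ∧ ∀ u a x y, D.arc u a → D.arc u x → D.arc a y → D.arc x y → D.arc y u →
    Joined D a x → False

/-- Whenever four vertices are pairwise joined, one of them is dominated by the three others and
none of them dominates the three others (so the three others form a cyclic triangle). -/
def OnlySinkK4 {V : Type*} (D : OGraph V) : Prop :=
  ∀ a b c d, Joined D a b → Joined D a c → Joined D a d → Joined D b c → Joined D b d →
    Joined D c d →
    ((D.arc b a ∧ D.arc c a ∧ D.arc d a) ∨ (D.arc a b ∧ D.arc c b ∧ D.arc d b) ∨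
      (D.arc a c ∧ D.arc b c ∧ D.arc d c) ∨ (D.arc a d ∧ D.arc b d ∧ D.arc c d)) ∧
    ¬ (D.arc a b ∧ D.arc a c ∧ D.arc a d) ∧ ¬ (D.arc b a ∧ D.arc b c ∧ D.arc b d) ∧
    ¬ (D.arc c a ∧ D.arc c b ∧ D.arc c d) ∧ ¬ (D.arc d a ∧ D.arc d b ∧ D.arc d c)

theorem NoK4.onlySink {V : Type*} {D : OGraph V} (h : NoK4 D) : OnlySinkK4 D :=
  fun a b c d h1 h2 h3 h4 h5 h6 => (h a b c d h1 h2 h3 h4 h5 h6).elim

theorem OnlySinkK4.noBad {V : Type*} {D : OGraph V} (h : OnlySinkK4 D) : NoBadK4 D := by
  constructor
  · intro v a b c va vb vc ab bc ac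
    exact (h v a b c (Or.inl va) (Or.inl vb) (Or.inl vc) ab ac bc).2.1 ⟨va, vb, vc⟩
  · intro u a x y ua ux ay xy yu ax
    rcases (h u a x y (Or.inl ua) (Or.inl ux) (Or.inr yu) ax (Or.inl ay) (Or.inl xy)).1 with
      h1 | h1 | h1 | h1
    · exact D.asymm _ _ ua h1.1
    · exact D.asymm _ _ ay h1.2.2
    · exact D.asymm _ _ xy h1.2.2
    · exact D.asymm _ _ yu h1.1

end Vale.Agent.P038.K4
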