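import Vale.Agent.P038.K4.Graph

/-!
# The second neighbourhood theorem, from the local inequality with explicit constants
-/

namespace Vale.Agent.P038.K4

variable {V : Type*} [Fintype V]

theorem k4_weighted_38 (hL : LocalGen (7/10) lm38 kp38 P38) [Nonempty V] (D : OGraph V)
    (hD : NoBadK4 D) (w : V → ℝ) (hw : ∀ v, 0 ≤ w v) :
    ∃ v, ∑ x ∈ N1 D v, w x ≤ ∑ x ∈ N2 D v, w x := by
  refine k4_weighted (7/10) lm38 kp38 P38 ?_ ?_ hL D hD w hw
  · intro x f g h0 h1
    unfold lm38
    exact max_lt one_pos (by linarith)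
  · intro x f g h0 h1 hf hg hfg
    unfold kp38
    exact div_nonneg (by positivity) (by linarith)

theorem k4_card_38 (hL : LocalGen (7/10) lm38 kp38 P38) [Nonempty V] (D : OGraph V)
    (hD : NoBadK4 D) : ∃ v, (N1 D v).card ≤ (N2 D v).card := by
  obtain ⟨v, hv⟩ := k4_weighted_38 hL D hD (fun _ => (1 : ℝ)) (fun _ => zero_le_one)
  refine ⟨v, ?_⟩
  simpa using hv

end Vale.Agent.P038.K4
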