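import Vale.Agent.P038.K4.Defs

/-!
# The local inequality behind the K4-free case, with general multipliers

The graph part of the proof works for every choice of `lm`, `kp`, `P`.
-/

namespace Vale.Agent.P038.K4

variable {V : Type*} [Fintype V]

/-- The local inequality with general multipliers: `lm x0 f0 g0` is the weight taken off the plain
frame, `kp x0 f0 g0` the multiplier of the `A`-structure term (with parameter `k`),
`P x n f x' n' f'` the potential. -/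
def LocalGen (k : ℝ) (lm kp : ℝ → ℝ → ℝ → ℝ) (P : ℝ → ℝ → ℝ → ℝ → ℝ → ℝ → ℝ) : Prop :=
  ∀ x0 x1 x2 f0 g0 m b ph ep h f2 g2 p : ℝ,
  0≤x1 → 0≤x2 → 0≤f0 → 0≤g0 → 0≤m → 0≤b → 0≤ph → 0≤ep → 0≤h → 0≤f2 → 0≤g2 → 0≤p →
  0<x0 → x0<1 → f0+g0≤x0 → x0+x1≤1 → x1+x2≤1 → m+b+ep+(f0-ph)≤x1 → m+b≤1-(f0+g0) →
  ph≤f0 → ep≤g0 → h≤ep+(f0-ph) → f2+g2≤x2 → p≤f2 → p≤1-(f0+g0) →
  0 ≤ (1-lm x0 f0 g0)*(f0+ep+b*(1-x0/(1-(f0+g0)))+m*(3/4*m-ph)/(1-(f0+g0))-x1*p/(1-(f0+g0)))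
    + lm x0 f0 g0*((x0-(f0+g0))-(x1-(m+b+ep+(f0-ph))))
    - kp x0 f0 g0*(k^2*x0*(1-x0)-x1*(x1+x2+2*k*x0-1))
    + P x1 (m+b+ep+(f0-ph)) (b+h) x2 (f2+g2) f2 - P x0 (f0+g0) f0 x1 (m+b+ep+(f0-ph)) (b+h)

/-- the multiplier that is used: weight taken off the plain frame -/
noncomputable def lm38 (x _f _g : ℝ) : ℝ := max 0 (2*x-1)

/-- the multiplier of the `A`-structure term that is used -/
noncomputable def kp38 (_x f g : ℝ) : ℝ := 63/50*(f+g)^2/(1-(f+g))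

/-- the potential that is used -/
noncomputable def P38 (x n f y _n' f' : ℝ) : ℝ :=
  f*(99/100 - 19/50*x - 87/100*y - 141/100*x^2 + 39/100*x*y) + f'*(63/50*x - 17/100*x^2)
    + 14/25*f*f' - (47/100 + 21/100*x)*n^2 + 103/100*n*f + 13/50*n*f' - 7/25*f^2 - 12/25*x*n*f'

open Classical in
/-- out-weight of `u` inside `A` -/
noncomputable def xw (D : OGraph V) (w : V → ℝ) (A : Finset V) (u : V) : ℝ :=
  ∑ y ∈ N1 D u ∩ A, w y

open Classical in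
/-- the walk on `A` -/
noncomputable def Mk (D : OGraph V) (w : V → ℝ) (A : Finset V) (u a : V) : ℝ :=
  if D.arc u a then w a / xw D w A u else 0

end Vale.Agent.P038.K4
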