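import Vale.Agent.P038.Mantel
import Vale.Agent.P038.K4.Gen

/-!
# The plain frame
-/

namespace Vale.Agent.P038.K4

open Finset

variable {V : Type*}

/-- weight of a set -/
def wt (w : V → ℝ) (S : Finset V) : ℝ := ∑ y ∈ S, w y

open Classical in
/-- out-neighbours of `u` inside `B` -/
noncomputable def Qs (D : OGraph V) (B : Finset V) (u : V) : Finset V :=
  B.filter fun v => D.arc u v

open Classical in
/-- in-neighbours of `u` inside `B` -/
noncomputable def Fs (D : OGraph V) (B : Finset V) (u : V) : Finset V :=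
  B.filter fun v => D.arc v u

open Classical in
/-- non-neighbours of `u` inside `B` -/
noncomputable def Es (D : OGraph V) (B : Finset V) (u : V) : Finset V :=
  B.filter fun v => ¬ D.arc u v ∧ ¬ D.arc v u

theorem mem_Qs {D : OGraph V} {B : Finset V} {u v : V} : v ∈ Qs D B u ↔ v ∈ B ∧ D.arc u v := by
  classical
  simp [Qs]

theorem mem_Fs {D : OGraph V} {B : Finset V} {u v : V} : v ∈ Fs D B u ↔ v ∈ B ∧ D.arc v u := by
  classical
  simp [Fs]

theorem mem_Es {D : OGraph V} {B : Finset V} {u v : V} :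
    v ∈ Es D B u ↔ v ∈ B ∧ ¬ D.arc u v ∧ ¬ D.arc v u := by
  classical
  simp [Es]

theorem wt_nonneg {w : V → ℝ} (hw : ∀ v, 0 ≤ w v) (S : Finset V) : 0 ≤ wt w S :=
  Finset.sum_nonneg fun x _ => hw x

theorem wt_mono {w : V → ℝ} (hw : ∀ v, 0 ≤ w v) {S T : Finset V} (h : S ⊆ T) :
    wt w S ≤ wt w T :=
  Finset.sum_le_sum_of_subset_of_nonneg h fun x _ _ => hw x

section
variable [Fintype V]

open Classical in
theorem wt_eq (w : V → ℝ) (S : Finset V) : wt w S = ∑ y, if y ∈ S then w y else 0 := by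
  unfold wt
  rw [Finset.sum_ite_mem, Finset.univ_inter]

open Classical in
theorem frame0 (D : OGraph V) (hD : NoBadK4 D) (w : V → ℝ) (hw : ∀ v, 0 ≤ w v) (v0 u a z : V)
    (hu : D.arc v0 u) (hva : D.arc v0 a) (hua : D.arc u a) (huz : D.arc u z) :
    wt w (N1 D z) + wt w (Qs D (N1 D v0) a) + wt w (Qs D (N2 D v0) a \ Qs D (N2 D v0) u) ≤
      wt w (N2 D u) + wt w (N1 D z ∩ Qs D (N1 D v0) u) + wt w (N1 D z ∩ Qs D (N1 D v0) a)
      + wt w (N1 D z ∩ Qs D (N2 D v0) u)
      + wt w (N1 D z ∩ (Qs D (N2 D v0) a \ Qs D (N2 D v0) u)) := by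
  simp only [wt_eq]
  simp only [← Finset.sum_add_distrib]
  refine Finset.sum_le_sum fun y _ => ?_
  have hwy := hw y
  have g1 : y ∈ Qs D (N1 D v0) a → y ∈ N2 D u := by
    intro h
    rw [mem_Qs, mem_N1] at h
    refine mem_N2.2 ⟨?_, ?_, a, hua, h.2⟩
    · rintro rfl
      exact D.asymm _ _ hua h.2
    · intro huy
      exact hD.1 v0 u a y hu hva h.1 (Or.inl hua) (Or.inl h.2) (Or.inl huy)
  have g2 : y ∈ Qs D (N2 D v0) a \ Qs D (N2 D v0) u → y ∈ N2 D u := by
    intro h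
    rw [Finset.mem_sdiff, mem_Qs, mem_Qs] at h
    refine mem_N2.2 ⟨?_, ?_, a, hua, h.1.2⟩
    · rintro rfl
      exact D.asymm _ _ hua h.1.2
    · intro huy
      exact h.2 ⟨h.1.1, huy⟩
  have g3 : y ∈ N1 D z → y ∉ N2 D u → y ∈ Qs D (N1 D v0) u ∨ y ∈ Qs D (N2 D v0) u := by
    intro h1 h2
    rw [mem_N1] at h1
    have huy : D.arc u y := by
      by_contra hn
      refine h2 (mem_N2.2 ⟨?_, hn, z, huz, h1⟩)
      rintro rfl
      exact D.asymm _ _ huz h1
    by_cases h : D.arc v0 y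
    · exact Or.inl (mem_Qs.2 ⟨mem_N1.2 h, huy⟩)
    · refine Or.inr (mem_Qs.2 ⟨mem_N2.2 ⟨?_, h, u, hu, huy⟩, huy⟩)
      rintro rfl
      exact D.asymm _ _ hu huy
  have g4 : y ∈ Qs D (N1 D v0) a → y ∉ Qs D (N2 D v0) a \ Qs D (N2 D v0) u := by
    intro h h'
    rw [mem_Qs, mem_N1] at h
    rw [Finset.mem_sdiff, mem_Qs, mem_N2] at h'
    exact h'.1.1.2.1 h.1
  by_cases c1 : y ∈ Qs D (N1 D v0) a
  · have c2 := g4 c1
    have c3 := g1 c1
    simp only [Finset.mem_inter, c1, c2, c3, if_true, if_false, and_true, and_false]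
    split_ifs <;> linarith
  · by_cases c2 : y ∈ Qs D (N2 D v0) a \ Qs D (N2 D v0) u
    · have c3 := g2 c2
      simp only [Finset.mem_inter, c1, c2, c3, if_true, if_false, and_true, and_false]
      split_ifs <;> linarith
    · by_cases c4 : y ∈ N1 D z
      · by_cases c5 : y ∈ N2 D u
        · simp only [Finset.mem_inter, c1, c2, c4, c5, if_true, if_false, and_false, true_and]
          split_ifs <;> linarith
        · rcases g3 c4 c5 with h | h
          · simp only [Finset.mem_inter, c1, c2, c4, c5, h, if_true, if_false, and_false, true_and]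
            split_ifs <;> linarith
          · simp only [Finset.mem_inter, c1, c2, c4, c5, h, if_true, if_false, and_false, true_and]
            split_ifs <;> linarith
      · simp only [Finset.mem_inter, c1, c2, c4, if_false, and_false, false_and]
        split_ifs <;> linarith

open Classical in
theorem ew_eq_inter' (D : OGraph V) (w : V → ℝ) (S T : Finset V) :
    ew D w S T = ∑ x ∈ S, w x * wt w (N1 D x ∩ T) := ew_eq_inter D w S T

open Classical in
theorem ew_eq_swap (D : OGraph V) (w : V → ℝ) (S T : Finset V) :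
    ew D w S T = ∑ c ∈ T, w c * wt w (Fs D S c) := by
  unfold ew
  rw [Finset.sum_comm]
  refine Finset.sum_congr rfl fun c _ => ?_
  unfold wt Fs
  rw [Finset.mul_sum, Finset.sum_filter]
  refine Finset.sum_congr rfl fun x _ => ?_
  split_ifs
  · ring
  · rfl

theorem ew_le_mul (D : OGraph V) (w : V → ℝ) (hw : ∀ v, 0 ≤ w v) (S T : Finset V) :
    ew D w S T ≤ wt w S * wt w T := by
  have h1 := ew_add_le D w hw S T
  have h2 := ew_nonneg D w hw T S
  unfold wt
  linarith

theorem ew_eq_zero (D : OGraph V) (w : V → ℝ) (S T : Finset V)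
    (h : ∀ x ∈ S, ∀ y ∈ T, ¬ D.arc x y) : ew D w S T = 0 := by
  unfold ew
  refine Finset.sum_eq_zero fun x hx => Finset.sum_eq_zero fun y hy => ?_
  rw [if_neg (h x hx y hy)]

open Classical in
theorem ew_split_left (D : OGraph V) (w : V → ℝ) {S M : Finset V} (hM : M ⊆ S) (T : Finset V) :
    ew D w S T = ew D w M T + ew D w (S \ M) T := by
  unfold ew
  rw [add_comm, Finset.sum_sdiff hM]

open Classical in
theorem ew_split_right (D : OGraph V) (w : V → ℝ) (S : Finset V) {T M : Finset V} (hM : M ⊆ T) :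
    ew D w S T = ew D w S M + ew D w S (T \ M) := by
  unfold ew
  rw [← Finset.sum_add_distrib]
  refine Finset.sum_congr rfl fun x _ => ?_
  rw [add_comm, Finset.sum_sdiff hM]

open Classical in
/-- The arcs that the forbidden `K₄`s allow inside `Q_u` and from `Q_u` to `Q_a \ Q_u`. -/
theorem cost (D : OGraph V) (hD : NoBadK4 D) (w : V → ℝ) (hw : ∀ v, 0 ≤ w v) (B : Finset V)
    (u a : V) (hua : D.arc u a) :
    ew D w (Qs D B u) (Qs D B u) + ew D w (Qs D B u) (Qs D B a \ Qs D B u) ≤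
      wt w (Qs D B u ∩ Es D B a) ^ 2 / 4 +
      wt w (Qs D B u ∩ Es D B a) * (wt w (Qs D B u) - wt w (Qs D B u ∩ Es D B a)) +
      wt w (Qs D B u ∩ Es D B a) * wt w (Fs D B u ∩ Qs D B a) +
      wt w (Qs D B u) * wt w (Es D B u ∩ Qs D B a) := by
  set Q := Qs D B u with hQ
  set M := Q ∩ Es D B a with hM
  have hMQ : M ⊆ Q := Finset.inter_subset_left
  have hadj : ∀ z ∈ Q \ M, D.arc u z ∧ Joined D a z := by
    intro z hz
    rw [Finset.mem_sdiff, hM, Finset.mem_inter, hQ, mem_Qs, mem_Es] at hz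
    refine ⟨hz.1.2, ?_⟩
    by_contra hn
    unfold Joined at hn
    push Not at hn
    exact hz.2 ⟨hz.1, hz.1.1, hn.1, hn.2⟩
  have h1 : ew D w (Q \ M) (Q \ M) = 0 := by
    refine ew_eq_zero D w _ _ fun x hx y hy hxy => ?_
    obtain ⟨x1, x2⟩ := hadj x hx
    obtain ⟨y1, y2⟩ := hadj y hy
    exact hD.1 u a x y hua x1 y1 x2 (Or.inl hxy) y2
  have h2 : ew D w Q Q = ew D w M M + ew D w M (Q \ M) + ew D w (Q \ M) M := by
    rw [ew_split_left D w hMQ Q, ew_split_right D w M hMQ, ew_split_right D w (Q \ M) hMQ, h1]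
    ring
  have h3 : ew D w M M ≤ wt w M ^ 2 / 4 := by
    refine mantel D w hw M fun x hx y hy z hz hxy hyz hxz => ?_
    have hx' := (mem_Qs.1 (hMQ hx)).2
    have hy' := (mem_Qs.1 (hMQ hy)).2
    have hz' := (mem_Qs.1 (hMQ hz)).2
    exact hD.1 u x y z hx' hy' hz' hxy hyz hxz
  have h4 : ew D w M (Q \ M) + ew D w (Q \ M) M ≤ wt w M * (wt w Q - wt w M) := by
    have h5 := ew_add_le D w hw M (Q \ M)
    have h6 : wt w Q - wt w M = ∑ y ∈ Q \ M, w y := by
      have := Finset.sum_sdiff hMQ (f := w)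
      unfold wt
      linarith
    rw [h6]
    exact h5
  have hsub : Fs D B u ∩ Qs D B a ⊆ Qs D B a \ Q := by
    intro y hy
    rw [Finset.mem_inter, mem_Fs] at hy
    rw [Finset.mem_sdiff, hQ, mem_Qs (u := u)]
    exact ⟨hy.2, fun h => D.asymm _ _ h.2 hy.1.2⟩
  have hrest : (Qs D B a \ Q) \ (Fs D B u ∩ Qs D B a) = Es D B u ∩ Qs D B a := by
    ext y
    simp only [Finset.mem_sdiff, Finset.mem_inter, hQ, mem_Qs, mem_Fs, mem_Es]
    tauto
  have h7 : ew D w Q (Qs D B a \ Q) = ew D w M (Fs D B u ∩ Qs D B a) +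
      ew D w (Q \ M) (Fs D B u ∩ Qs D B a) + ew D w Q (Es D B u ∩ Qs D B a) := by
    rw [ew_split_right D w Q hsub, hrest, ew_split_left D w hMQ (Fs D B u ∩ Qs D B a)]
  have h8 : ew D w (Q \ M) (Fs D B u ∩ Qs D B a) = 0 := by
    refine ew_eq_zero D w _ _ fun x hx y hy hxy => ?_
    obtain ⟨x1, x2⟩ := hadj x hx
    rw [Finset.mem_inter, mem_Fs, mem_Qs] at hy
    exact hD.2 u a x y hua x1 hy.2.2 hxy hy.1.2 x2
  have h9 := ew_le_mul D w hw M (Fs D B u ∩ Qs D B a)
  have h10 := ew_le_mul D w hw Q (Es D B u ∩ Qs D B a)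
  rw [h2, h7, h8]
  linarith

end

end Vale.Agent.P038.K4
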