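import Vale.Agent.P038.K4.Frame

/-!
# The plain frame, averaged
-/

namespace Vale.Agent.P038.K4

open Finset

variable {V : Type*}

/-- out-weight into `B` -/
noncomputable def qv (D : OGraph V) (w : V → ℝ) (B : Finset V) (u : V) : ℝ := wt w (Qs D B u)

/-- weight of the in-neighbours in `B` -/
noncomputable def fv (D : OGraph V) (w : V → ℝ) (B : Finset V) (u : V) : ℝ := wt w (Fs D B u)

/-- the rest -/
noncomputable def gv (D : OGraph V) (w : V → ℝ) (B : Finset V) (u : V) : ℝ :=
  1 - qv D w B u - fv D w B u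

open Classical in
/-- weight of `Q_u ∩ E_a` -/
noncomputable def mv (D : OGraph V) (w : V → ℝ) (B : Finset V) (u a : V) : ℝ :=
  wt w (Qs D B u ∩ Es D B a)

open Classical in
/-- weight of `Q_u ∩ F_a` -/
noncomputable def bv (D : OGraph V) (w : V → ℝ) (B : Finset V) (u a : V) : ℝ :=
  wt w (Qs D B u ∩ Fs D B a)

open Classical in
/-- weight of `F_u ∩ Q_a` -/
noncomputable def phv (D : OGraph V) (w : V → ℝ) (B : Finset V) (u a : V) : ℝ :=
  wt w (Fs D B u ∩ Qs D B a)

open Classical in
/-- `g_u` minus the weight of `E_u ∩ Q_a` -/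
noncomputable def epv (D : OGraph V) (w : V → ℝ) (B : Finset V) (u a : V) : ℝ :=
  gv D w B u - wt w (Es D B u ∩ Qs D B a)

open Classical in
theorem wt_inter_partition (D : OGraph V) (w : V → ℝ) (B S : Finset V) (hS : S ⊆ B) (a : V) :
    wt w S = wt w (S ∩ Qs D B a) + wt w (S ∩ Fs D B a) + wt w (S ∩ Es D B a) := by
  have h1 : S = (S ∩ Qs D B a) ∪ (S ∩ Fs D B a) ∪ (S ∩ Es D B a) := by
    ext y
    simp only [Finset.mem_union, Finset.mem_inter, mem_Qs, mem_Fs, mem_Es]
    constructor
    · intro h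
      have := hS h
      tauto
    · tauto
  have h2 : Disjoint ((S ∩ Qs D B a) ∪ (S ∩ Fs D B a)) (S ∩ Es D B a) := by
    rw [Finset.disjoint_left]
    intro y
    simp only [Finset.mem_union, Finset.mem_inter, mem_Qs, mem_Fs, mem_Es]
    tauto
  have h3 : Disjoint (S ∩ Qs D B a) (S ∩ Fs D B a) := by
    rw [Finset.disjoint_left]
    intro y
    simp only [Finset.mem_inter, mem_Qs, mem_Fs]
    intro h h'
    exact D.asymm _ _ h.2.2 h'.2.2
  unfold wt
  rw [← Finset.sum_union h3, ← Finset.sum_union h2, ← h1]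

theorem Qs_sub (D : OGraph V) (B : Finset V) (u : V) : Qs D B u ⊆ B := fun _ h => (mem_Qs.1 h).1
theorem Fs_sub (D : OGraph V) (B : Finset V) (u : V) : Fs D B u ⊆ B := fun _ h => (mem_Fs.1 h).1
theorem Es_sub (D : OGraph V) (B : Finset V) (u : V) : Es D B u ⊆ B := fun _ h => (mem_Es.1 h).1

open Classical in
theorem xw_eq [Fintype V] (D : OGraph V) (w : V → ℝ) (A : Finset V) (u : V) :
    xw D w A u = wt w (Qs D A u) := by
  unfold xw wt
  refine Finset.sum_congr ?_ fun _ _ => rfl
  ext y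
  simp [mem_N1, mem_Qs, and_comm]

/-- The value of the plain frame. -/
noncomputable def TTT [Fintype V] (D : OGraph V) (w : V → ℝ) (A B : Finset V) (u a b : V) : ℝ :=
  fv D w B u + epv D w B u a
    + bv D w B u a*(1-xw D w A u/(1-(fv D w B u+gv D w B u)))
    + mv D w B u a*(3/4*mv D w B u a-phv D w B u a)/(1-(fv D w B u+gv D w B u))
    - xw D w A a*bv D w B u b/(1-(fv D w B u+gv D w B u))

section
variable [Fintype V]

open Classical in
/-- The plain frame for an arc `u → a` of `D[A]`, averaged over `z ∈ Q_u`. -/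
theorem pair_frame (D : OGraph V) (hD : NoBadK4 D) (w : V → ℝ) (hw : ∀ v, 0 ≤ w v) (v0 u a : V)
    (hu : D.arc v0 u) (hva : D.arc v0 a) (hua : D.arc u a)
    (hmin : ∀ v, 1 ≤ wt w (N1 D v)) (hcon : wt w (N2 D u) < wt w (N1 D u))
    (hq : 0 < qv D w (N2 D v0) u) :
    xw D w (N1 D v0) a + qv D w (N2 D v0) a - (xw D w (N1 D v0) u + qv D w (N2 D v0) u)
      + fv D w (N2 D v0) u + bv D w (N2 D v0) u a + epv D w (N2 D v0) u a
      + mv D w (N2 D v0) u a * (3/4 * mv D w (N2 D v0) u a - phv D w (N2 D v0) u a) /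
        qv D w (N2 D v0) u
      - (ew D w (Qs D (N2 D v0) u) (Qs D (N1 D v0) u) +
          ew D w (Qs D (N2 D v0) u) (Qs D (N1 D v0) a)) / qv D w (N2 D v0) u < 0 := by
  set A := N1 D v0 with hA
  set B := N2 D v0 with hB
  -- out-weight of u
  have hN1 : wt w (N1 D u) = xw D w A u + qv D w B u := by
    rw [xw_eq, qv]
    unfold wt
    rw [← Finset.sum_union]
    · refine Finset.sum_congr ?_ fun _ _ => rfl
      ext y
      rw [Finset.mem_union, mem_Qs, mem_Qs, mem_N1, mem_N1, mem_N2]
      constructor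
      · intro h
        by_cases h' : D.arc v0 y
        · exact Or.inl ⟨h', h⟩
        · refine Or.inr ⟨⟨?_, h', u, hu, h⟩, h⟩
          rintro rfl
          exact D.asymm _ _ hu h
      · rintro (h | h)
        · exact h.2
        · exact h.2
    · rw [Finset.disjoint_left]
      intro y hy hy'
      rw [mem_Qs, mem_N1] at hy
      rw [mem_Qs, mem_N2] at hy'
      exact hy'.1.2.1 hy.1
  -- sum the frame over z
  have hsum : qv D w B u * (1 + xw D w A a + wt w (Qs D B a \ Qs D B u)) ≤
      qv D w B u * wt w (N2 D u) + ew D w (Qs D B u) (Qs D A u) + ew D w (Qs D B u) (Qs D A a)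
      + ew D w (Qs D B u) (Qs D B u) + ew D w (Qs D B u) (Qs D B a \ Qs D B u) := by
    rw [ew_eq_inter', ew_eq_inter', ew_eq_inter', ew_eq_inter']
    have e1 : qv D w B u = ∑ z ∈ Qs D B u, w z := rfl
    rw [e1, Finset.sum_mul, Finset.sum_mul, ← Finset.sum_add_distrib, ← Finset.sum_add_distrib,
      ← Finset.sum_add_distrib, ← Finset.sum_add_distrib]
    refine Finset.sum_le_sum fun z hz => ?_
    have h1 := frame0 D hD w hw v0 u a z hu hva hua (mem_Qs.1 hz).2
    have h2 := hmin z
    have h3 := hw z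
    rw [xw_eq]
    have h4 : 1 + wt w (Qs D A a) + wt w (Qs D B a \ Qs D B u) ≤
      wt w (N2 D u) + wt w (N1 D z ∩ Qs D A u) + wt w (N1 D z ∩ Qs D A a)
      + wt w (N1 D z ∩ Qs D B u)
      + wt w (N1 D z ∩ (Qs D B a \ Qs D B u)) := by linarith
    have h5 := mul_le_mul_of_nonneg_left h4 h3
    linarith
  have hcost := cost D hD w hw B u a hua
  have hp := wt_inter_partition D w B (Qs D B u) (Qs_sub D B u) a
  have hq1 : wt w (Qs D B a \ Qs D B u) = qv D w B a - wt w (Qs D B u ∩ Qs D B a) := by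
    have h := Finset.sum_inter_add_sum_sdiff (Qs D B a) (Qs D B u) w
    have h' : Qs D B a ∩ Qs D B u = Qs D B u ∩ Qs D B a := Finset.inter_comm _ _
    rw [h'] at h
    unfold qv wt
    linarith
  rw [hq1] at hsum
  have hstrict : qv D w B u * wt w (N2 D u) < qv D w B u * (xw D w A u + qv D w B u) := by
    rw [← hN1]
    exact mul_lt_mul_of_pos_left hcon hq
  -- abbreviations
  have m1 : mv D w B u a = wt w (Qs D B u ∩ Es D B a) := rfl
  have b1 : bv D w B u a = wt w (Qs D B u ∩ Fs D B a) := rfl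
  have p1 : phv D w B u a = wt w (Fs D B u ∩ Qs D B a) := rfl
  have q1 : qv D w B u = wt w (Qs D B u) := rfl
  have e1 : epv D w B u a = 1 - qv D w B u - fv D w B u - wt w (Es D B u ∩ Qs D B a) := rfl
  rw [← m1, ← p1, ← q1] at hcost
  rw [← m1, ← b1, ← q1] at hp
  set s := wt w (Qs D B u ∩ Qs D B a) with hs
  set E' := wt w (Es D B u ∩ Qs D B a) with hE'
  rw [e1]
  set q := qv D w B u with hqdef
  set m := mv D w B u a
  set b := bv D w B u a
  set ph := phv D w B u a
  set C1 := ew D w (Qs D B u) (Qs D A u)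
  set C2 := ew D w (Qs D B u) (Qs D A a)
  have hmain : q * (xw D w A a + qv D w B a - (xw D w A u + q) + 1 - s - m - E') +
      m * (3/4*m - ph) - (C1 + C2) < 0 := by nlinarith
  have hrw : xw D w A a + qv D w B a - (xw D w A u + q) + fv D w B u + b +
      (1 - q - fv D w B u - E') + m * (3/4 * m - ph) / q - (C1 + C2) / q =
      (q * (xw D w A a + qv D w B a - (xw D w A u + q) + 1 - s - m - E') +
      m * (3/4*m - ph) - (C1 + C2)) / q := by
    field_simp
    rw [hp]
    ring
  rw [hrw]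
  exact div_neg_of_neg_of_pos hmain hq

end

end Vale.Agent.P038.K4
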