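import Mathlib

/-!
# Stationary distributions and the averaging argument
-/

namespace Vale.Agent.P038.K4

open Finset

variable {ι : Type*} [Fintype ι]

/-- Every finite stochastic matrix has a stationary distribution. -/
theorem exists_stationary [Nonempty ι] (M : ι → ι → ℝ) (h0 : ∀ i j, 0 ≤ M i j)
    (h1 : ∀ i, ∑ j, M i j = 1) :
    ∃ π : ι → ℝ, (∀ i, 0 ≤ π i) ∧ ∑ i, π i = 1 ∧ ∀ j, ∑ i, π i * M i j = π j := by
  classical
  let N : Matrix ι ι ℝ := Matrix.of M - 1
  have hdet : N.det = 0 := by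
    rw [← Matrix.exists_mulVec_eq_zero_iff]
    refine ⟨fun _ => 1, ?_, ?_⟩
    · intro h
      obtain ⟨i⟩ := ‹Nonempty ι›
      have := congrFun h i
      simp at this
    · ext i
      simp [N, Matrix.mulVec, dotProduct, h1, Matrix.one_apply]
  obtain ⟨v, hv0, hv⟩ := Matrix.exists_vecMul_eq_zero_iff.2 hdet
  have hv1 : ∀ j, ∑ i, v i * M i j = v j := by
    intro j
    have := congrFun hv j
    simp only [N, Matrix.vecMul_sub, Matrix.vecMul_one, Pi.sub_apply, Pi.zero_apply] at this
    have h2 : (Matrix.vecMul v (Matrix.of M)) j = ∑ i, v i * M i j := by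
      simp [Matrix.vecMul, dotProduct]
    rw [h2] at this
    linarith
  have hle : ∀ j, |v j| ≤ ∑ i, |v i| * M i j := by
    intro j
    rw [← hv1 j]
    refine (Finset.abs_sum_le_sum_abs _ _).trans (Finset.sum_le_sum fun i _ => ?_)
    rw [abs_mul, abs_of_nonneg (h0 i j)]
  have hsum : ∑ j, ∑ i, |v i| * M i j = ∑ i, |v i| := by
    rw [Finset.sum_comm]
    refine Finset.sum_congr rfl fun i _ => ?_
    rw [← Finset.mul_sum, h1, mul_one]
  have heq : ∀ j, ∑ i, |v i| * M i j = |v j| := by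
    intro j
    by_contra hne
    have hlt : |v j| < ∑ i, |v i| * M i j := lt_of_le_of_ne (hle j) (Ne.symm hne)
    have := Finset.sum_lt_sum (fun j _ => hle j) ⟨j, Finset.mem_univ j, hlt⟩
    rw [hsum] at this
    exact lt_irrefl _ this
  have hpos : 0 < ∑ i, |v i| := by
    have : ∃ i, v i ≠ 0 := by
      by_contra hcon
      push Not at hcon
      exact hv0 (funext hcon)
    obtain ⟨i, hi⟩ := this
    exact Finset.sum_pos' (fun i _ => abs_nonneg _) ⟨i, Finset.mem_univ i, abs_pos.2 hi⟩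
  refine ⟨fun i => |v i| / ∑ i, |v i|, fun i => div_nonneg (abs_nonneg _) hpos.le, ?_, ?_⟩
  · rw [← Finset.sum_div]
    exact div_self hpos.ne'
  · intro j
    have : ∀ i, |v i| / (∑ i, |v i|) * M i j = |v i| * M i j / ∑ i, |v i| := fun i => by ring
    simp_rw [this]
    rw [← Finset.sum_div, heq j]

/-- The averaging argument along a stationary walk `u → a → b`. -/
theorem averaging [Nonempty ι] (M : ι → ι → ℝ) (h0 : ∀ i j, 0 ≤ M i j)
    (h1 : ∀ i, ∑ j, M i j = 1) (e lm κ : ι → ℝ) (T G : ι → ι → ι → ℝ) (Q : ι → ι → ℝ)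
    (hlm : ∀ u, 0 < 1 - lm u) (hκ : ∀ u, 0 ≤ κ u)
    (H1 : ∀ u, ∑ a, ∑ b, M u a * M a b * (e a - e u + T u a b) < 0)
    (H2 : ∀ u, 0 ≤ ∑ a, ∑ b, M u a * M a b * G u a b)
    (H3 : ∀ u a b, 0 < M u a → 0 < M a b →
      0 ≤ (1 - lm u) * T u a b + lm u * (e u - e a) - κ u * G u a b + Q a b - Q u a) : False := by
  obtain ⟨π, hπ0, hπ1, hπ⟩ := exists_stationary M h0 h1
  -- the sum of the local quantities is nonnegative
  have hN : 0 ≤ ∑ u, ∑ a, ∑ b, π u * (M u a * M a b) *
      ((1 - lm u) * T u a b + lm u * (e u - e a) - κ u * G u a b + Q a b - Q u a) := by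
    refine Finset.sum_nonneg fun u _ => Finset.sum_nonneg fun a _ => Finset.sum_nonneg fun b _ => ?_
    rcases (h0 u a).eq_or_lt with h | h
    · simp [← h]
    rcases (h0 a b).eq_or_lt with h' | h'
    · simp [← h']
    exact mul_nonneg (mul_nonneg (hπ0 u) (mul_nonneg h.le h'.le)) (H3 u a b h h')
  -- first part is negative
  have hA : ∑ u, π u * ((1 - lm u) * ∑ a, ∑ b, M u a * M a b * (e a - e u + T u a b)) < 0 := by
    have hex : ∃ u, 0 < π u := by
      by_contra hcon
      push Not at hcon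
      have : ∑ i, π i ≤ 0 := Finset.sum_nonpos fun i _ => hcon i
      linarith
    obtain ⟨u, hu⟩ := hex
    have : ∑ u, π u * ((1 - lm u) * ∑ a, ∑ b, M u a * M a b * (e a - e u + T u a b)) <
        ∑ u : ι, (0 : ℝ) := by
      refine Finset.sum_lt_sum (fun i _ => ?_) ⟨u, Finset.mem_univ u, ?_⟩
      · have := mul_neg_of_pos_of_neg (hlm i) (H1 i)
        exact mul_nonpos_of_nonneg_of_nonpos (hπ0 i) this.le
      · have := mul_neg_of_pos_of_neg (hlm u) (H1 u)
        exact mul_neg_of_pos_of_neg hu this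
    simpa using this
  have hG : 0 ≤ ∑ u, π u * (κ u * ∑ a, ∑ b, M u a * M a b * G u a b) :=
    Finset.sum_nonneg fun u _ => mul_nonneg (hπ0 u) (mul_nonneg (hκ u) (H2 u))
  -- stationarity identities
  have hE : ∑ u, π u * ∑ a, ∑ b, M u a * M a b * (e a - e u) = 0 := by
    have h2 : ∀ u, ∑ a, ∑ b, M u a * M a b * (e a - e u) = ∑ a, M u a * e a - e u := by
      intro u
      have : ∀ a, ∑ b, M u a * M a b * (e a - e u) = M u a * (e a - e u) := by
        intro a
        rw [← Finset.sum_mul, ← Finset.mul_sum, h1 a, mul_one]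
      simp_rw [this, mul_sub]
      rw [Finset.sum_sub_distrib, ← Finset.sum_mul, h1 u, one_mul]
    simp_rw [h2, mul_sub, Finset.mul_sum]
    rw [Finset.sum_sub_distrib, Finset.sum_comm, sub_eq_zero]
    refine Finset.sum_congr rfl fun a _ => ?_
    rw [← hπ a, Finset.sum_mul]
    refine Finset.sum_congr rfl fun u _ => ?_
    ring
  have hQ : ∑ u, π u * ∑ a, ∑ b, M u a * M a b * (Q a b - Q u a) = 0 := by
    have h2 : ∀ u, ∑ a, ∑ b, M u a * M a b * (Q a b - Q u a) =
        ∑ a, M u a * (∑ b, M a b * Q a b) - ∑ a, M u a * Q u a := by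
      intro u
      rw [← Finset.sum_sub_distrib]
      refine Finset.sum_congr rfl fun a _ => ?_
      have : ∀ b, M u a * M a b * (Q a b - Q u a) =
          M u a * (M a b * Q a b) - M u a * Q u a * M a b := fun b => by ring
      simp_rw [this]
      rw [Finset.sum_sub_distrib, ← Finset.mul_sum, ← Finset.mul_sum, h1 a, mul_one]
    simp_rw [h2, mul_sub, Finset.mul_sum]
    rw [Finset.sum_sub_distrib, sub_eq_zero]
    rw [Finset.sum_comm]
    refine Finset.sum_congr rfl fun a _ => ?_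
    have h3 : ∀ u, ∑ b, π u * (M u a * (M a b * Q a b)) = π u * M u a * ∑ b, M a b * Q a b := by
      intro u
      rw [Finset.mul_sum]
      refine Finset.sum_congr rfl fun b _ => ?_
      ring
    simp_rw [h3]
    rw [← Finset.sum_mul, hπ a, Finset.mul_sum]
  have key : ∑ u, ∑ a, ∑ b, π u * (M u a * M a b) *
      ((1 - lm u) * T u a b + lm u * (e u - e a) - κ u * G u a b + Q a b - Q u a) =
      ∑ u, π u * ((1 - lm u) * ∑ a, ∑ b, M u a * M a b * (e a - e u + T u a b))
      - ∑ u, π u * (κ u * ∑ a, ∑ b, M u a * M a b * G u a b)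
      - ∑ u, π u * ∑ a, ∑ b, M u a * M a b * (e a - e u)
      + ∑ u, π u * ∑ a, ∑ b, M u a * M a b * (Q a b - Q u a) := by
    rw [← Finset.sum_sub_distrib, ← Finset.sum_sub_distrib, ← Finset.sum_add_distrib]
    refine Finset.sum_congr rfl fun u _ => ?_
    simp_rw [Finset.mul_sum]
    rw [← Finset.sum_sub_distrib, ← Finset.sum_sub_distrib, ← Finset.sum_add_distrib]
    refine Finset.sum_congr rfl fun a _ => ?_
    rw [← Finset.sum_sub_distrib, ← Finset.sum_sub_distrib, ← Finset.sum_add_distrib]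
    refine Finset.sum_congr rfl fun b _ => ?_
    ring
  rw [key, hE, hQ] at hN
  linarith

end Vale.Agent.P038.K4
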