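import Vale.Agent.P038.K4.Frame2

/-!
# The plain frame along the walk
-/

namespace Vale.Agent.P038.K4

open Finset

variable {V : Type*} [Fintype V]

theorem Mk_row (D : OGraph V) (w : V → ℝ) (A : Finset V) (u : V) (hx : 0 < xw D w A u) :
    ∑ a ∈ A, Mk D w A u a = 1 := by
  classical
  unfold Mk
  rw [← Finset.sum_filter, ← Finset.sum_div]
  rw [div_eq_one_iff_eq hx.ne', xw_eq]
  rfl

theorem Mk_nonneg (D : OGraph V) (w : V → ℝ) (hw : ∀ v, 0 ≤ w v) (A : Finset V) (u a : V) :
    0 ≤ Mk D w A u a := by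
  classical
  unfold Mk
  split_ifs
  · refine div_nonneg (hw a) ?_
    rw [xw_eq]
    exact wt_nonneg hw _
  · exact le_rfl

/-- averaging a function along the walk -/
theorem Mk_sum (D : OGraph V) (w : V → ℝ) (A : Finset V) (u : V) (f : V → ℝ) :
    ∑ a ∈ A, Mk D w A u a * f a = (∑ a ∈ Qs D A u, w a * f a) / xw D w A u := by
  classical
  unfold Mk Qs
  rw [Finset.sum_filter, Finset.sum_div]
  refine Finset.sum_congr rfl fun a _ => ?_
  split_ifs
  · ring
  · simp

theorem ew_Fs (D : OGraph V) (w : V → ℝ) (B : Finset V) (u : V) (T : Finset V) :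
    ew D w (Qs D B u) T = ∑ c ∈ T, w c * bv D w B u c := by
  classical
  rw [ew_eq_swap]
  refine Finset.sum_congr rfl fun c _ => ?_
  have : Fs D (Qs D B u) c = Qs D B u ∩ Fs D B c := by
    ext y
    simp only [mem_Fs, mem_Qs, Finset.mem_inter]
    tauto
  rw [this]
  rfl

theorem frameH1 (D : OGraph V) (hD : NoBadK4 D) (w : V → ℝ) (hw : ∀ v, 0 ≤ w v) (v0 u : V)
    (hu : D.arc v0 u)
    (hmin : ∀ v, 1 ≤ wt w (N1 D v)) (hcon : wt w (N2 D u) < wt w (N1 D u))
    (hx : ∀ a, D.arc v0 a → 0 < xw D w (N1 D v0) a) (hq : 0 < qv D w (N2 D v0) u) :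
    ∑ a ∈ N1 D v0, ∑ b ∈ N1 D v0, Mk D w (N1 D v0) u a * Mk D w (N1 D v0) a b *
      ((xw D w (N1 D v0) a + qv D w (N2 D v0) a - 1) -
        (xw D w (N1 D v0) u + qv D w (N2 D v0) u - 1) +
        TTT D w (N1 D v0) (N2 D v0) u a b) < 0 := by
  classical
  set A := N1 D v0 with hA
  set B := N2 D v0 with hB
  have hqe : 1 - (fv D w B u + gv D w B u) = qv D w B u := by unfold gv; ring
  set C1 := ew D w (Qs D B u) (Qs D A u) with hC1
  set q := qv D w B u with hqd
  -- inner sum
  have hin : ∀ a ∈ A, Mk D w A u a * ∑ b ∈ A, Mk D w A a b *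
      ((xw D w A a + qv D w B a - 1) - (xw D w A u + q - 1) + TTT D w A B u a b) ≤
      Mk D w A u a * (C1 / q - bv D w B u a * (xw D w A u / q)) ∧ (0 < Mk D w A u a →
      Mk D w A u a * ∑ b ∈ A, Mk D w A a b *
      ((xw D w A a + qv D w B a - 1) - (xw D w A u + q - 1) + TTT D w A B u a b) <
      Mk D w A u a * (C1 / q - bv D w B u a * (xw D w A u / q))) := by
    intro a ha
    have key : D.arc u a → ∑ b ∈ A, Mk D w A a b *
      ((xw D w A a + qv D w B a - 1) - (xw D w A u + q - 1) + TTT D w A B u a b) <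
      C1 / q - bv D w B u a * (xw D w A u / q) := by
      intro hua
      have hxa := hx a (mem_N1.1 ha)
      have h1 := pair_frame D hD w hw v0 u a hu (mem_N1.1 ha) hua hmin hcon hq
      rw [← hA, ← hB, ← hqd, ← hC1] at h1
      have h2 : ∑ b ∈ A, Mk D w A a b * (xw D w A a * bv D w B u b / q) =
          ew D w (Qs D B u) (Qs D A a) / q := by
        rw [Mk_sum, ew_Fs]
        rw [Finset.sum_div, Finset.sum_div]
        refine Finset.sum_congr rfl fun b _ => ?_
        field_simp
      have h3 : ∑ b ∈ A, Mk D w A a b *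
          ((xw D w A a + qv D w B a - 1) - (xw D w A u + q - 1) + TTT D w A B u a b) =
          (xw D w A a + qv D w B a - (xw D w A u + q) + fv D w B u + epv D w B u a
            + bv D w B u a * (1 - xw D w A u / q)
            + mv D w B u a * (3/4*mv D w B u a - phv D w B u a) / q) * ∑ b ∈ A, Mk D w A a b -
          ∑ b ∈ A, Mk D w A a b * (xw D w A a * bv D w B u b / q) := by
        rw [Finset.mul_sum, ← Finset.sum_sub_distrib]
        refine Finset.sum_congr rfl fun b _ => ?_
        unfold TTT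
        rw [hqe]
        ring
      rw [h3, h2, Mk_row D w A a hxa]
      have h4 : (C1 + ew D w (Qs D B u) (Qs D A a)) / q =
          C1 / q + ew D w (Qs D B u) (Qs D A a) / q := add_div _ _ _
      rw [h4] at h1
      linarith
    by_cases hua : D.arc u a
    · have hk := key hua
      refine ⟨mul_le_mul_of_nonneg_left hk.le (Mk_nonneg D w hw A u a), fun hpos => ?_⟩
      exact mul_lt_mul_of_pos_left hk hpos
    · have h0 : Mk D w A u a = 0 := by unfold Mk; rw [if_neg hua]
      rw [h0]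
      simp
  have hxu := hx u hu
  have hrow := Mk_row D w A u hxu
  have hex : ∃ a ∈ A, 0 < Mk D w A u a := by
    by_contra hcon'
    push Not at hcon'
    have : ∑ a ∈ A, Mk D w A u a ≤ 0 := Finset.sum_nonpos hcon'
    linarith
  obtain ⟨a0, ha0, ha0'⟩ := hex
  have hlt : ∑ a ∈ A, Mk D w A u a * ∑ b ∈ A, Mk D w A a b *
      ((xw D w A a + qv D w B a - 1) - (xw D w A u + q - 1) + TTT D w A B u a b) <
      ∑ a ∈ A, Mk D w A u a * (C1 / q - bv D w B u a * (xw D w A u / q)) :=
    Finset.sum_lt_sum (fun a ha => (hin a ha).1) ⟨a0, ha0, (hin a0 ha0).2 ha0'⟩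
  have hzero : ∑ a ∈ A, Mk D w A u a * (C1 / q - bv D w B u a * (xw D w A u / q)) = 0 := by
    have h5 : ∑ a ∈ A, Mk D w A u a * (bv D w B u a * (xw D w A u / q)) = C1 / q := by
      rw [Mk_sum, hC1, ew_Fs, Finset.sum_div, Finset.sum_div]
      refine Finset.sum_congr rfl fun b _ => ?_
      field_simp
    simp_rw [mul_sub]
    rw [Finset.sum_sub_distrib, h5, ← Finset.sum_mul, hrow]
    ring
  rw [hzero] at hlt
  refine lt_of_eq_of_lt ?_ hlt
  refine Finset.sum_congr rfl fun a _ => ?_
  rw [Finset.mul_sum]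
  refine Finset.sum_congr rfl fun b _ => ?_
  ring

end Vale.Agent.P038.K4
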