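import Vale.Agent.P038.K4.Form

/-!
# P038, K4-free case: kernel checker for the twelve quartic forms (hedge, helper706)

Polynomials as Horner trees: `k a b` is the constant `a - b`, `n p q` is `p + y_0 q` with `p` a
polynomial in the variables `y_1, y_2, …`.  Certificates are binary trees of substitutions
`y_i → y_i + y_j` / `y_j → y_i + y_j`.  All functions are written with recursors, for the kernel.
-/

set_option linter.all false

namespace Vale.Agent.P038.K4.H706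

/-- Horner trees. -/
inductive Q
  | k (a b : ℕ)
  | n (p q : Q)

/-- shift of the environment -/
def sh (ρ : ℕ → ℝ) : ℕ → ℝ := fun i => ρ (i + 1)

/-- environment with a new variable in front -/
def cn (t : ℝ) (ρ : ℕ → ℝ) : ℕ → ℝ
  | 0 => t
  | i + 1 => ρ i

/-- `y_i ↦ y_i + t` -/
def bp (ρ : ℕ → ℝ) (i : ℕ) (t : ℝ) : ℕ → ℝ := fun j => if j = i then ρ j + t else ρ j

def ev : Q → (ℕ → ℝ) → ℝ
  | .k a b, _ => (a : ℝ) - b
  | .n p q, ρ => ev p (sh ρ) + ρ 0 * ev q ρ

theorem ev_k (a b : ℕ) (ρ : ℕ → ℝ) : ev (.k a b) ρ = (a : ℝ) - b := rfl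

theorem ev_n (p q : Q) (ρ : ℕ → ℝ) : ev (.n p q) ρ = ev p (sh ρ) + ρ 0 * ev q ρ := rfl

theorem sh_cn (t : ℝ) (ρ : ℕ → ℝ) : sh (cn t ρ) = ρ := rfl

theorem cn_sh (ρ : ℕ → ℝ) : cn (ρ 0) (sh ρ) = ρ := by
  funext i; cases i <;> rfl

theorem sh_bp (ρ : ℕ → ℝ) (i : ℕ) (t : ℝ) : sh (bp ρ (i + 1) t) = bp (sh ρ) i t := by
  funext j; simp [sh, bp]

theorem sh_bp0 (ρ : ℕ → ℝ) (t : ℝ) : sh (bp ρ 0 t) = sh ρ := by
  funext j; simp [sh, bp]

theorem bp_zero (ρ : ℕ → ℝ) (i : ℕ) (t : ℝ) : bp ρ (i + 1) t 0 = ρ 0 := by simp [bp]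

theorem bp_zero0 (ρ : ℕ → ℝ) (t : ℝ) : bp ρ 0 t 0 = ρ 0 + t := by simp [bp]

/-- the zero constant -/
@[reducible] def z0 : Q := .k 0 0

noncomputable def addk (a a' : ℕ) (t : Q) : Q :=
  Q.rec (motive := fun _ => Q) (fun b b' => .k (Nat.add a b) (Nat.add a' b'))
    (fun _ q ihp _ => .n ihp q) t

theorem ev_addk (a a' : ℕ) : ∀ (t : Q) (ρ : ℕ → ℝ), ev (addk a a' t) ρ = (a - a') + ev t ρ
  | .k b b', ρ => by
    show (((a + b : ℕ) : ℝ) - ((a' + b' : ℕ) : ℝ)) = _
    rw [ev_k]; push_cast; ring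
  | .n p q, ρ => by
    show ev (addk a a' p) (sh ρ) + ρ 0 * ev q ρ = _
    rw [ev_addk a a' p, ev_n]; ring

noncomputable def add (s : Q) : Q → Q :=
  Q.rec (motive := fun _ => Q → Q) (fun a a' t => addk a a' t)
    (fun p q ihp ihq t => Q.rec (motive := fun _ => Q) (fun b b' => .n (addk b b' p) q)
      (fun p' q' _ _ => .n (ihp p') (ihq q')) t) s

theorem ev_add : ∀ (s t : Q) (ρ : ℕ → ℝ), ev (add s t) ρ = ev s ρ + ev t ρ
  | .k a a', t, ρ => by
    show ev (addk a a' t) ρ = _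
    rw [ev_addk, ev_k]
  | .n p q, .k b b', ρ => by
    show ev (addk b b' p) (sh ρ) + ρ 0 * ev q ρ = _
    rw [ev_addk, ev_k, ev_n]; ring
  | .n p q, .n p' q', ρ => by
    show ev (add p p') (sh ρ) + ρ 0 * ev (add q q') ρ = _
    rw [ev_add p p', ev_add q q', ev_n, ev_n]; ring

/-- multiplication by the natural number `c` -/
noncomputable def smul (c : ℕ) (t : Q) : Q :=
  Q.rec (motive := fun _ => Q) (fun b b' => .k (Nat.mul c b) (Nat.mul c b'))
    (fun _ _ ihp ihq => .n ihp ihq) t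

theorem ev_smul (c : ℕ) : ∀ (t : Q) (ρ : ℕ → ℝ), ev (smul c t) ρ = c * ev t ρ
  | .k b b', ρ => by
    show (((c * b : ℕ) : ℝ) - ((c * b' : ℕ) : ℝ)) = _
    rw [ev_k]; push_cast; ring
  | .n p q, ρ => by
    show ev (smul c p) (sh ρ) + ρ 0 * ev (smul c q) ρ = _
    rw [ev_smul c p, ev_smul c q, ev_n]; ring

noncomputable def neg (t : Q) : Q :=
  Q.rec (motive := fun _ => Q) (fun b b' => .k b' b) (fun _ _ ihp ihq => .n ihp ihq) t

theorem ev_neg : ∀ (t : Q) (ρ : ℕ → ℝ), ev (neg t) ρ = - ev t ρ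
  | .k b b', ρ => by
    show (b' : ℝ) - b = _
    rw [ev_k]; ring
  | .n p q, ρ => by
    show ev (neg p) (sh ρ) + ρ 0 * ev (neg q) ρ = _
    rw [ev_neg p, ev_neg q, ev_n]; ring

/-- `a - a'` times `y_j` -/
noncomputable def mvk (a a' j : ℕ) : Q :=
  Nat.rec (motive := fun _ => Q) (.n z0 (.k a a')) (fun _ ih => .n ih z0) j

theorem ev_mvk (a a' : ℕ) : ∀ (j : ℕ) (ρ : ℕ → ℝ), ev (mvk a a' j) ρ = ρ j * (a - a')
  | 0, ρ => by
    show ev z0 (sh ρ) + ρ 0 * ev (.k a a') ρ = _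
    rw [ev_k, ev_k]; push_cast; ring
  | j + 1, ρ => by
    show ev (mvk a a' j) (sh ρ) + ρ 0 * ev z0 ρ = _
    rw [ev_mvk a a' j, ev_k]; show ρ (j + 1) * _ + _ = _; push_cast; ring

/-- multiplication by `y_j` -/
noncomputable def mv (p : Q) : ℕ → Q :=
  Q.rec (motive := fun _ => ℕ → Q) (fun a a' j => mvk a a' j)
    (fun p q ihp ihq j => Nat.rec (motive := fun _ => Q) (.n z0 (.n p q))
      (fun i _ => .n (ihp i) (ihq (Nat.succ i))) j) p

theorem ev_mv : ∀ (p : Q) (j : ℕ) (ρ : ℕ → ℝ), ev (mv p j) ρ = ρ j * ev p ρ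
  | .k a a', j, ρ => by
    show ev (mvk a a' j) ρ = _
    rw [ev_mvk, ev_k]
  | .n p q, 0, ρ => by
    show ev z0 (sh ρ) + ρ 0 * ev (.n p q) ρ = _
    rw [ev_k]; push_cast; ring
  | .n p q, j + 1, ρ => by
    show ev (mv p j) (sh ρ) + ρ 0 * ev (mv q (j + 1)) ρ = _
    rw [ev_mv p j, ev_mv q (j + 1), ev_n]
    show ρ (j + 1) * _ + _ = _
    ring

/-- product of a polynomial of the next level with one of this level; `f = mul p` -/
noncomputable def mulS (f : Q → Q) (p : Q) (t : Q) : Q :=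
  Q.rec (motive := fun _ => Q) (fun b b' => .n (f (.k b b')) z0)
    (fun t1 _ _ ih2 => .n (f t1) ih2) t

noncomputable def mulk (a a' : ℕ) (t : Q) : Q :=
  Q.rec (motive := fun _ => Q)
    (fun b b' => .k (Nat.add (Nat.mul a b) (Nat.mul a' b')) (Nat.add (Nat.mul a b') (Nat.mul a' b)))
    (fun _ _ ihp ihq => .n ihp ihq) t

theorem ev_mulk (a a' : ℕ) : ∀ (t : Q) (ρ : ℕ → ℝ), ev (mulk a a' t) ρ = (a - a') * ev t ρ
  | .k b b', ρ => by
    show (((a * b + a' * b' : ℕ) : ℝ) - ((a * b' + a' * b : ℕ) : ℝ)) = _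
    rw [ev_k]; push_cast; ring
  | .n p q, ρ => by
    show ev (mulk a a' p) (sh ρ) + ρ 0 * ev (mulk a a' q) ρ = _
    rw [ev_mulk a a' p, ev_mulk a a' q, ev_n]; ring

noncomputable def mul (s : Q) : Q → Q :=
  Q.rec (motive := fun _ => Q → Q) (fun a a' t => mulk a a' t)
    (fun p q ihp ihq t => add (mulS ihp p t) (.n z0 (ihq t))) s

theorem ev_mulS {f : Q → Q} {p : Q} (hf : ∀ t ρ, ev (f t) ρ = ev p ρ * ev t ρ) :
    ∀ (t : Q) (ρ : ℕ → ℝ), ev (mulS f p t) ρ = ev p (sh ρ) * ev t ρ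
  | .k b b', ρ => by
    show ev (f (.k b b')) (sh ρ) + ρ 0 * ev z0 ρ = _
    rw [hf, ev_k, ev_k, ev_k]; push_cast; ring
  | .n t1 t2, ρ => by
    show ev (f t1) (sh ρ) + ρ 0 * ev (mulS f p t2) ρ = _
    rw [hf, ev_mulS hf t2, ev_n]; ring

theorem ev_mul : ∀ (s t : Q) (ρ : ℕ → ℝ), ev (mul s t) ρ = ev s ρ * ev t ρ
  | .k a a', t, ρ => by
    show ev (mulk a a' t) ρ = _
    rw [ev_mulk, ev_k]
  | .n p q, t, ρ => by
    show ev (add (mulS (mul p) p t) (.n z0 (mul q t))) ρ = _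
    rw [ev_add, ev_mulS (fun t ρ => ev_mul p t ρ), ev_n, ev_n, ev_mul q t, ev_k]
    push_cast; ring

/-- `y_0 → y_0 + y_{j+1}` -/
noncomputable def s0 (j : ℕ) (P : Q) : Q :=
  Q.rec (motive := fun _ => Q) (fun a a' => .k a a')
    (fun p _ _ ihq => add (mv ihq (Nat.succ j)) (.n p ihq)) P

theorem ev_s0 (j : ℕ) : ∀ (P : Q) (ρ : ℕ → ℝ), ev (s0 j P) ρ = ev P (bp ρ 0 (ρ (j + 1)))
  | .k a a', ρ => rfl
  | .n p q, ρ => by
    show ev (add (mv (s0 j q) (j + 1)) (.n p (s0 j q))) ρ = _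
    rw [ev_add, ev_mv, ev_n, ev_n, ev_s0 j q, sh_bp0, bp_zero0]; ring

noncomputable def zr (l : Q) : Q :=
  Q.rec (motive := fun _ => Q) (fun d d' => .n (.n z0 (.k d d')) z0)
    (fun b _ _ ihl => .n (.n z0 b) ihl) l

theorem ev_zr : ∀ (l : Q) (t : ℝ) (ρ : ℕ → ℝ), ev (zr l) (cn t ρ) = ρ 0 * ev l (cn t ρ)
  | .k d d', t, ρ => by
    show (ev z0 (sh (sh (cn t ρ))) + (sh (cn t ρ)) 0 * ev (.k d d') _) + _ * ev z0 _ = _
    rw [ev_k, ev_k, ev_k, ev_k, sh_cn]; push_cast; ring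
  | .n b l, t, ρ => by
    show ev (.n z0 b) (sh (cn t ρ)) + (cn t ρ) 0 * ev (zr l) (cn t ρ) = _
    rw [ev_n, ev_n, ev_zr l t ρ, sh_cn, ev_k]; push_cast; ring

/-- combination of `L1` in the variables `(t, y_1, …)` and `L2` in `(t, y_0, y_1, …)` to
`L1 + y_0 L2` -/
noncomputable def zn (L1 : Q) : Q → Q :=
  Q.rec (motive := fun _ => Q → Q)
    (fun c c' L2 => Q.rec (motive := fun _ => Q)
      (fun d d' => Nat.rec (motive := fun _ => Q) (Nat.rec (motive := fun _ => Q) (.k c c')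
        (fun _ _ => .n (.n (.k c c') (.k d d')) z0) d')
        (fun _ _ => .n (.n (.k c c') (.k d d')) z0) d)
      (fun b l _ _ => .n (.n (.k c c') b) (zr l)) L2)
    (fun a _ _ ihl L2 => Q.rec (motive := fun _ => Q) (fun d d' => .n (.n a (.k d d')) (ihl z0))
      (fun b l' _ _ => .n (.n a b) (ihl l')) L2) L1

theorem ev_zn : ∀ (L1 L2 : Q) (t : ℝ) (ρ : ℕ → ℝ),
    ev (zn L1 L2) (cn t ρ) = ev L1 (cn t (sh ρ)) + ρ 0 * ev L2 (cn t ρ)
  | .k c c', .k 0 0, t, ρ => by
    show ev (.k c c') (cn t ρ) = _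
    rw [ev_k, ev_k, ev_k]; push_cast; ring
  | .k c c', .k (d + 1) d', t, ρ => by
    show ev (.n (.n (.k c c') (.k (d + 1) d')) z0) (cn t ρ) = _
    rw [ev_n, ev_n, ev_k, ev_k, ev_k, ev_k, ev_k, sh_cn]; push_cast; ring
  | .k c c', .k 0 (d' + 1), t, ρ => by
    show ev (.n (.n (.k c c') (.k 0 (d' + 1))) z0) (cn t ρ) = _
    rw [ev_n, ev_n, ev_k, ev_k, ev_k, ev_k, ev_k, sh_cn]; push_cast; ring
  | .k c c', .n b l, t, ρ => by
    show ev (.n (.n (.k c c') b) (zr l)) (cn t ρ) = _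
    rw [ev_n, ev_n, ev_n, ev_zr, sh_cn, ev_k, ev_k]; ring
  | .n a l, .k d d', t, ρ => by
    show ev (.n (.n a (.k d d')) (zn l z0)) (cn t ρ) = _
    rw [ev_n, ev_n, ev_n, ev_zn l z0, sh_cn, sh_cn, ev_k, ev_k, ev_k]
    show _ + t * _ = _ + t * _ + _
    push_cast; ring
  | .n a l, .n b l', t, ρ => by
    show ev (.n (.n a b) (zn l l')) (cn t ρ) = _
    have hc : cn t (sh ρ) 0 = cn t ρ 0 := rfl
    rw [ev_n, ev_n, ev_n, ev_n, ev_zn l l', sh_cn, sh_cn, hc]
    ring

/-- `P(y_i → y_i + t)` in the variables `(t, y_0, y_1, …)` -/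
noncomputable def up (P : Q) : ℕ → Q :=
  Q.rec (motive := fun _ => ℕ → Q) (fun a a' _ => .k a a')
    (fun p _ ihp ihq i => Nat.rec (motive := fun _ => Q)
      (add (mv (ihq 0) 1) (.n (.n p z0) (ihq 0)))
      (fun i' _ => zn (ihp i') (ihq (Nat.succ i'))) i) P

theorem ev_up : ∀ (P : Q) (i : ℕ) (t : ℝ) (ρ : ℕ → ℝ), ev (up P i) (cn t ρ) = ev P (bp ρ i t)
  | .k a a', i, t, ρ => rfl
  | .n p q, 0, t, ρ => by
    show ev (add (mv (up q 0) 1) (.n (.n p z0) (up q 0))) (cn t ρ) = _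
    rw [ev_add, ev_mv, ev_n, ev_n, ev_up q 0, ev_n, sh_cn, sh_bp0, bp_zero0, ev_k]
    show ρ 0 * _ + (_ + _ + t * _) = _
    push_cast; ring
  | .n p q, i + 1, t, ρ => by
    show ev (zn (up p i) (up q (i + 1))) (cn t ρ) = _
    rw [ev_zn, ev_up p i, ev_up q (i + 1), ev_n, sh_bp, bp_zero]

/-- `y_{i+1} → y_{i+1} + y_0` -/
noncomputable def t0 (i : ℕ) (P : Q) : Q :=
  Q.rec (motive := fun _ => Q) (fun a a' => .k a a')
    (fun p _ _ ihq => add (up p i) (.n z0 ihq)) P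

theorem ev_t0 (i : ℕ) : ∀ (P : Q) (ρ : ℕ → ℝ), ev (t0 i P) ρ = ev P (bp ρ (i + 1) (ρ 0))
  | .k a a', ρ => rfl
  | .n p q, ρ => by
    show ev (add (up p i) (.n z0 (t0 i q))) ρ = _
    rw [ev_add, ev_n, ev_n, ev_t0 i q, sh_bp, bp_zero, ev_k]
    have h := ev_up p i (ρ 0) (sh ρ)
    rw [cn_sh] at h
    rw [h]; push_cast; ring

/-- `y_i → y_i + y_j` -/
noncomputable def sub (P : Q) : ℕ → ℕ → Q :=
  Q.rec (motive := fun _ => ℕ → ℕ → Q) (fun a a' _ _ => .k a a')
    (fun p q ihp ihq i j =>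
      Nat.rec (motive := fun _ => Q)
        (Nat.rec (motive := fun _ => Q) (.n p q) (fun j' _ => s0 j' (.n p q)) j)
        (fun i' _ => Nat.rec (motive := fun _ => Q) (t0 i' (.n p q))
          (fun j' _ => .n (ihp i' j') (ihq (Nat.succ i') (Nat.succ j'))) j) i) P

theorem ev_sub : ∀ (P : Q) (i j : ℕ), i ≠ j → ∀ ρ : ℕ → ℝ, ev (sub P i j) ρ = ev P (bp ρ i (ρ j))
  | .k a a', _, _, _, ρ => rfl
  | .n p q, i + 1, j + 1, h, ρ => by
    show ev (.n (sub p i j) (sub q (i + 1) (j + 1))) ρ = _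
    rw [ev_n, ev_n, ev_sub p i j (fun e => h (by rw [e])), ev_sub q (i + 1) (j + 1) h, sh_bp,
      bp_zero]
    rfl
  | .n p q, 0, j + 1, h, ρ => ev_s0 j (.n p q) ρ
  | .n p q, i + 1, 0, h, ρ => ev_t0 i (.n p q) ρ
  | .n p q, 0, 0, h, ρ => absurd rfl h

/-- all coefficients are nonnegative -/
noncomputable def nnQ (P : Q) : Bool :=
  Q.rec (motive := fun _ => Bool) (fun a a' => Nat.ble a' a)
    (fun _ _ ihp ihq => Bool.rec (motive := fun _ => Bool) false ihq ihp) P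

theorem nnQ_n {p q : Q} (h : nnQ (.n p q) = true) : nnQ p = true ∧ nnQ q = true := by
  change Bool.rec (motive := fun _ => Bool) false (nnQ q) (nnQ p) = true at h
  cases hp : nnQ p with
  | false => rw [hp] at h; exact absurd h (by simp)
  | true => rw [hp] at h; exact ⟨rfl, h⟩

theorem ev_nonneg : ∀ (P : Q), nnQ P = true → ∀ ρ : ℕ → ℝ, (∀ i, 0 ≤ ρ i) → 0 ≤ ev P ρ
  | .k a a', h, ρ, hr => by
    have h' : a' ≤ a := Nat.le_of_ble_eq_true h
    rw [ev_k]
    have : (a' : ℝ) ≤ a := by exact_mod_cast h'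
    linarith
  | .n p q, h, ρ, hr => by
    obtain ⟨hp, hq⟩ := nnQ_n h
    have h1 := ev_nonneg p hp (sh ρ) (fun i => hr (i + 1))
    have h2 := ev_nonneg q hq ρ hr
    have h3 := hr 0
    rw [ev_n]; positivity

/-- all coefficients are nonpositive -/
noncomputable def npQ (P : Q) : Bool :=
  Q.rec (motive := fun _ => Bool) (fun a a' => Nat.ble a a')
    (fun _ _ ihp ihq => Bool.rec (motive := fun _ => Bool) false ihq ihp) P

theorem npQ_n {p q : Q} (h : npQ (.n p q) = true) : npQ p = true ∧ npQ q = true := by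
  change Bool.rec (motive := fun _ => Bool) false (npQ q) (npQ p) = true at h
  cases hp : npQ p with
  | false => rw [hp] at h; exact absurd h (by simp)
  | true => rw [hp] at h; exact ⟨rfl, h⟩

theorem ev_nonpos : ∀ (P : Q), npQ P = true → ∀ ρ : ℕ → ℝ, (∀ i, 0 ≤ ρ i) → ev P ρ ≤ 0
  | .k a a', h, ρ, hr => by
    have h' : a ≤ a' := Nat.le_of_ble_eq_true h
    rw [ev_k]
    have : (a : ℝ) ≤ a' := by exact_mod_cast h'
    linarith
  | .n p q, h, ρ, hr => by
    obtain ⟨hp, hq⟩ := npQ_n h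
    have h1 := ev_nonpos p hp (sh ρ) (fun i => hr (i + 1))
    have h2 := ev_nonpos q hq ρ hr
    have h3 := hr 0
    have h4 : ρ 0 * ev q ρ ≤ 0 := mul_nonpos_of_nonneg_of_nonpos h3 h2
    rw [ev_n]; linarith

/-- forcing evaluation of a number -/
noncomputable def fN (a : ℕ) (c : ℕ → Bool) : Bool :=
  Nat.rec (motive := fun _ => Bool) (c 0) (fun m _ => c (Nat.succ m)) a

theorem fN_eq (a : ℕ) (c : ℕ → Bool) : fN a c = c a := by cases a <;> rfl

/-- the continuation applied to `n p q`, with zero parts removed -/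
noncomputable def nz (p q : Q) (c : Q → Bool) : Bool :=
  Q.rec (motive := fun _ => Bool)
    (fun a a' => Q.rec (motive := fun _ => Bool)
      (fun b b' => Nat.rec (motive := fun _ => Bool)
        (Nat.rec (motive := fun _ => Bool) (c (.k a a')) (fun m _ => c (.n (.k a a') (.k b b'))) b')
        (fun m _ => c (.n (.k a a') (.k b b'))) b)
      (fun _ _ _ _ => c (.n (.k a a') q)) q)
    (fun _ _ _ _ => c (.n p q)) p

/-- forcing evaluation of a Horner tree -/
noncomputable def fQ (P : Q) : (Q → Bool) → Bool :=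
  Q.rec (motive := fun _ => (Q → Bool) → Bool)
    (fun a a' c => fN a (fun b => fN a' (fun b' => c (.k b b'))))
    (fun _ _ ihp ihq c => ihp (fun p' => ihq (fun q' => nz p' q' c))) P

/-- a statement about polynomials which only depends on the values -/
def Inv (S : Q → Prop) : Prop := ∀ P P' : Q, (∀ ρ, ev P ρ = ev P' ρ) → S P → S P'

theorem nz_spec (S : Q → Prop) (hS : Inv S) (p q : Q) (c : Q → Bool)
    (hc : ∀ P, c P = true → S P) (h : nz p q c = true) : S (.n p q) := by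
  cases p with
  | n p1 p2 => exact hc _ h
  | k a a' =>
    cases q with
    | n q1 q2 => exact hc _ h
    | k b b' =>
      cases b with
      | succ m => exact hc _ h
      | zero =>
        cases b' with
        | succ m => exact hc _ h
        | zero =>
          refine hS (.k a a') _ (fun ρ => ?_) (hc _ h)
          rw [ev_n, ev_k, ev_k, ev_k]; push_cast; ring

theorem fQ_spec : ∀ (P : Q) (S : Q → Prop), Inv S → ∀ (c : Q → Bool),
    (∀ P, c P = true → S P) → fQ P c = true → S P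
  | .k a a', S, hS, c, hc, h => by
    change fN a (fun b => fN a' (fun b' => c (.k b b'))) = true at h
    rw [fN_eq, fN_eq] at h
    exact hc _ h
  | .n p q, S, hS, c, hc, h => by
    change fQ p (fun p' => fQ q (fun q' => nz p' q' c)) = true at h
    have h1 := fQ_spec p (fun p' => S (.n p' q))
      (fun P P' he hs => hS _ _ (fun ρ => by rw [ev_n, ev_n, he]) hs)
      (fun p' => fQ q (fun q' => nz p' q' c)) (fun p' h2 => ?_) h
    · exact h1
    · exact fQ_spec q (fun q' => S (.n p' q'))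
        (fun P P' he hs => hS _ _ (fun ρ => by rw [ev_n, ev_n, he]) hs)
        (fun q' => nz p' q' c) (fun q' h3 => nz_spec S hS p' q' c hc h3) h2

/-- certificates -/
inductive T
  | L
  | N (i j : ℕ) (a b : T)

/-- the check: `P ≥ 0` where all variables are `≥ 0` and `G > 0` -/
noncomputable def chk (t : T) : Q → Q → Bool :=
  T.rec (motive := fun _ => Q → Q → Bool)
    (fun P G => Bool.rec (motive := fun _ => Bool) (nnQ P) true (npQ G))
    (fun i j _ _ iha ihb P G =>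
      Bool.rec (motive := fun _ => Bool)
        (Bool.rec (motive := fun _ => Bool) false
          (ihb (sub P j i) (sub G j i)) (iha (sub P i j) (sub G i j)))
        false (Nat.beq i j)) t

/-- what is proved -/
def Good (G P : Q) : Prop := ∀ ρ : ℕ → ℝ, (∀ i, 0 ≤ ρ i) → 0 < ev G ρ → 0 ≤ ev P ρ

theorem chk_N {i j : ℕ} {a b : T} {P G : Q} (h : chk (.N i j a b) P G = true) :
    i ≠ j ∧ chk a (sub P i j) (sub G i j) = true ∧ chk b (sub P j i) (sub G j i) = true := by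
  change Bool.rec (motive := fun _ => Bool)
        (Bool.rec (motive := fun _ => Bool) false
          (chk b (sub P j i) (sub G j i)) (chk a (sub P i j) (sub G i j)))
        false (Nat.beq i j) = true at h
  cases hb : Nat.beq i j with
  | true => rw [hb] at h; exact absurd h (by simp)
  | false =>
    rw [hb] at h
    refine ⟨fun e => ?_, ?_⟩
    · rw [e] at hb
      exact Nat.ne_of_beq_eq_false hb rfl
    · change Bool.rec (motive := fun _ => Bool) false
          (chk b (sub P j i) (sub G j i)) (chk a (sub P i j) (sub G i j)) = true at h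
      cases ha : chk a (sub P i j) (sub G i j) with
      | false => rw [ha] at h; exact absurd h (by simp)
      | true => rw [ha] at h; exact ⟨rfl, h⟩

theorem chk_L {P G : Q} (h : chk .L P G = true) : npQ G = true ∨ nnQ P = true := by
  change Bool.rec (motive := fun _ => Bool) (nnQ P) true (npQ G) = true at h
  cases hb : npQ G with
  | true => exact Or.inl rfl
  | false => rw [hb] at h; exact Or.inr h

theorem split {G P : Q} {i j : ℕ} (hij : i ≠ j) (h1 : Good (sub G i j) (sub P i j))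
    (h2 : Good (sub G j i) (sub P j i)) : Good G P := by
  intro ρ hr hg
  have key : ∀ (i j : ℕ), i ≠ j → ρ j ≤ ρ i → Good (sub G i j) (sub P i j) → 0 ≤ ev P ρ := by
    intro i j hij hle hc
    have hb : bp (bp ρ i (-ρ j)) i ((bp ρ i (-ρ j)) j) = ρ := by
      funext l
      have hji : j ≠ i := fun e => hij e.symm
      by_cases hl : l = i
      · simp [bp, hl, hji]
      · simp [bp, hl]
    have := hc (bp ρ i (-ρ j)) (by
      intro l
      by_cases hl : l = i
      · simp [bp, hl]; linarith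
      · simp [bp, hl, hr l]) (by rw [ev_sub _ _ _ hij, hb]; exact hg)
    rwa [ev_sub _ _ _ hij, hb] at this
  rcases le_total (ρ j) (ρ i) with hle | hle
  · exact key i j hij hle h1
  · exact key j i (Ne.symm hij) hle h2

theorem chk_sound : ∀ (t : T) (P G : Q), chk t P G = true → Good G P
  | .L, P, G, h => fun ρ hr hg => by
    rcases chk_L h with h | h
    · have := ev_nonpos _ h ρ hr
      linarith
    · exact ev_nonneg _ h ρ hr
  | .N i j a b, P, G, h => by
    obtain ⟨hij, h1, h2⟩ := chk_N h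
    exact split hij (chk_sound a _ _ h1) (chk_sound b _ _ h2)

/-- the check with forced evaluation of the input -/
noncomputable def chkS (t : T) (P G : Q) : Bool := fQ G (fun G' => fQ P (fun P' => chk t P' G'))

theorem chkS_sound (t : T) (P G : Q) (h : chkS t P G = true) : Good G P := by
  refine fQ_spec G (fun G => Good G P) (fun A B he hs ρ hr hg => ?_) _ (fun G' h2 => ?_) h
  · exact hs ρ hr (by rw [he]; exact hg)
  · refine fQ_spec P (fun P => Good G' P) (fun A B he hs ρ hr hg => ?_) _ (fun P' h3 => ?_) h2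
    · rw [← he]; exact hs ρ hr hg
    · exact chk_sound t P' G' h3

end Vale.Agent.P038.K4.H706
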