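import Vale.Agent.P038.K4.H706b

set_option linter.all false
set_option maxRecDepth 100000

/-! Certificates (search: helper706, after the trees of helper38). -/

namespace Vale.Agent.P038.K4.H706

def tr_l00 : T := (.N 0 5 (.N 0 4 (.N 2 8 (.N 2 7 .L .L) (.N 0 8 .L (.N 6 8 .L (.N 4 8 .L (.N 7
  8 .L .L))))) (.N 2 8 (.N 2 7 (.N 2 4 .L .L) .L) (.N 6 8 .L (.N 0 8 .L (.N 1 4 (.N 7 8 .L (.N 1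
  2 .L .L)) (.N 4 8 .L (.N 7 8 .L .L))))))) (.N 2 8 (.N 2 7 (.N 2 5 (.N 2 4 .L (.N 4 6 .L .L))
  (.N 4 6 .L (.N 5 6 .L .L))) (.N 4 6 .L (.N 5 6 .L (.N 6 7 .L .L)))) (.N 6 8 (.N 4 6 .L (.N 5 6
  .L (.N 6 7 .L .L))) (.N 1 4 (.N 7 8 .L (.N 1 2 .L .L)) (.N 7 8 .L (.N 4 8 .L .L))))))

theorem chk_l00 : chkS tr_l00 (pQ false 0 0) (gQ false) = true := by
  decide +kernel

def tr_l01 : T := (.N 0 5 (.N 0 4 (.N 2 8 (.N 2 7 .L .L) (.N 0 8 .L (.N 6 8 .L (.N 4 8 .L (.N 7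
  8 .L .L))))) (.N 2 4 (.N 2 8 (.N 2 7 .L .L) (.N 6 8 .L (.N 0 8 .L (.N 7 8 .L .L)))) (.N 6 8
  (.N 4 6 (.N 4 7 .L .L) .L) (.N 0 8 (.N 4 7 .L .L) (.N 4 7 .L .L))))) (.N 2 4 (.N 2 8 (.N 2 7
  (.N 2 5 .L (.N 5 6 .L .L)) (.N 5 6 .L (.N 6 7 .L .L))) (.N 6 7 (.N 5 6 .L (.N 6 8 .L .L)) (.N
  7 8 .L .L))) (.N 4 6 (.N 4 7 .L .L) (.N 5 6 .L (.N 6 7 (.N 6 8 .L .L) .L)))))

theorem chk_l01 : chkS tr_l01 (pQ false 0 1) (gQ false) = true := by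
  decide +kernel

def tr_l10 : T := (.N 0 5 (.N 0 4 (.N 2 8 .L .L) (.N 2 8 .L (.N 4 6 (.N 1 4 .L .L) .L))) (.N 2 5
  (.N 4 6 (.N 2 8 .L (.N 1 4 .L .L)) (.N 6 7 (.N 6 8 .L (.N 2 8 .L .L)) (.N 2 8 .L .L))) (.N 6 8
  (.N 5 6 (.N 4 5 .L .L) (.N 6 7 (.N 4 6 (.N 5 6 .L .L) .L) .L)) (.N 1 4 .L .L))))

theorem chk_l10 : chkS tr_l10 (pQ false 1 0) (gQ false) = true := by
  decide +kernel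

def tr_l11 : T := (.N 0 5 (.N 2 7 (.N 0 4 (.N 2 8 .L (.N 0 8 .L (.N 6 8 .L (.N 1 2 (.N 6 8 .L
  (.N 6 8 .L (.N 0 8 .L .L))) (.N 6 8 .L (.N 6 8 .L .L)))))) (.N 2 8 .L (.N 6 8 .L (.N 1 2 (.N 6
  8 .L (.N 6 8 .L .L)) (.N 6 8 .L (.N 6 8 .L .L)))))) (.N 6 7 (.N 0 4 (.N 0 8 .L (.N 6 8 .L (.N
  0 8 .L (.N 6 8 .L (.N 6 8 .L .L))))) (.N 6 8 .L (.N 6 8 .L (.N 6 8 .L .L)))) (.N 0 4 (.N 0 7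
  (.N 0 8 .L (.N 0 8 .L .L)) (.N 1 7 .L .L)) (.N 1 4 (.N 4 7 .L (.N 1 7 .L .L)) (.N 1 7 .L
  .L))))) (.N 6 7 (.N 2 5 (.N 2 8 (.N 4 6 .L .L) (.N 6 8 (.N 4 6 .L .L) (.N 1 2 (.N 6 8 .L (.N 6
  8 .L .L)) (.N 6 8 .L (.N 6 8 .L .L))))) (.N 4 6 (.N 1 5 .L .L) (.N 6 8 (.N 5 6 (.N 1 5 (.N 4 6
  .L .L) (.N 4 6 .L .L)) .L) (.N 1 5 (.N 6 8 .L (.N 6 8 .L .L)) .L)))) (.N 2 7 (.N 2 5 (.N 2 8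
  .L (.N 1 2 .L .L)) (.N 1 5 .L (.N 5 7 .L .L))) (.N 1 5 (.N 1 7 .L (.N 1 4 .L .L)) (.N 2 5 .L
  .L)))))

theorem chk_l11 : chkS tr_l11 (pQ false 1 1) (gQ false) = true := by
  decide +kernel

end Vale.Agent.P038.K4.H706
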