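import Vale.Agent.P038.K4.H706b

set_option linter.all false
set_option maxRecDepth 100000

/-! Certificates (search: helper706, after the trees of helper38). -/

namespace Vale.Agent.P038.K4.H706

def tr_l20 : T := (.N 0 4 (.N 0 8 (.N 2 5 (.N 2 7 .L (.N 0 7 .L (.N 6 7 .L .L))) (.N 0 5 (.N 0 7
  .L .L) (.N 5 6 (.N 4 5 .L .L) .L))) (.N 2 5 (.N 2 8 (.N 2 7 .L (.N 6 7 .L (.N 7 8 (.N 2 7 .L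
  (.N 7 8 .L .L)) .L))) (.N 6 8 (.N 6 7 .L (.N 2 7 .L (.N 2 7 .L .L))) (.N 4 8 (.N 2 7 .L (.N 2
  7 .L .L)) (.N 2 7 .L (.N 2 7 .L .L))))) (.N 6 8 (.N 5 6 (.N 4 5 .L .L) .L) (.N 4 8 (.N 4 5 .L
  .L) .L)))) (.N 4 6 (.N 2 4 (.N 2 5 (.N 2 8 (.N 2 7 .L (.N 4 7 .L (.N 7 8 (.N 2 7 .L (.N 7 8
  (.N 7 8 (.N 6 7 .L .L) .L) .L)) .L))) (.N 4 8 (.N 4 7 .L (.N 2 7 .L (.N 2 7 .L (.N 7 8 (.N 4 7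
  .L .L) .L)))) (.N 4 7 (.N 0 8 .L (.N 4 8 .L .L)) (.N 0 7 (.N 0 8 .L .L) (.N 2 7 .L (.N 2 7 .L
  .L)))))) (.N 4 5 (.N 4 8 (.N 4 7 .L (.N 7 8 .L .L)) (.N 4 8 (.N 4 7 .L .L) (.N 0 8 .L .L)))
  (.N 0 8 (.N 0 5 .L .L) .L))) (.N 1 8 (.N 4 5 (.N 1 4 (.N 2 5 (.N 2 7 .L .L) .L) (.N 4 8 (.N 2
  7 .L .L) (.N 2 7 .L .L))) (.N 2 5 (.N 2 4 (.N 2 7 .L .L) .L) (.N 0 5 .L .L))) (.N 0 8 (.N 0 5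
  (.N 1 4 (.N 2 7 .L .L) (.N 2 7 .L .L)) (.N 1 4 (.N 2 7 .L .L) (.N 2 7 .L .L))) (.N 1 2 (.N 1 4
  .L .L) (.N 2 8 (.N 2 7 .L (.N 7 8 .L .L)) (.N 2 7 .L .L)))))) (.N 2 5 (.N 2 8 (.N 2 7 .L (.N 6
  7 .L (.N 7 8 (.N 2 7 .L (.N 7 8 (.N 4 7 .L .L) .L)) .L))) (.N 6 8 (.N 6 7 .L (.N 2 7 .L (.N 2
  7 .L .L))) (.N 0 7 (.N 0 8 .L .L) (.N 2 7 .L (.N 2 7 .L .L))))) (.N 6 8 (.N 5 6 (.N 0 5 .L .L)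
  .L) (.N 0 8 (.N 0 5 .L .L) .L)))))

theorem chk_l20 : chkS tr_l20 (pQ false 2 0) (gQ false) = true := by
  decide +kernel

def tr_h00 : T := (.N 0 4 (.N 0 7 (.N 0 5 (.N 2 8 (.N 2 8 (.N 2 5 (.N 0 8 (.N 0 4 (.N 0 2 .L .L)
  .L) (.N 2 8 .L .L)) (.N 0 5 (.N 0 8 (.N 0 4 .L .L) .L) .L)) (.N 0 5 (.N 0 8 (.N 0 2 (.N 0 4 .L
  .L) .L) .L) .L)) (.N 0 8 (.N 0 2 (.N 0 5 (.N 0 8 (.N 0 4 .L (.N 4 8 .L .L)) (.N 0 4 .L .L))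
  .L) .L) (.N 6 8 .L .L))) (.N 2 8 (.N 2 5 (.N 0 2 .L (.N 2 8 (.N 2 5 (.N 0 2 .L .L) .L) .L))
  (.N 5 6 .L .L)) (.N 6 8 (.N 5 6 .L .L) .L))) (.N 2 5 (.N 2 8 (.N 6 7 (.N 2 5 (.N 2 8 .L .L)
  .L) (.N 2 7 (.N 2 5 (.N 2 8 .L .L) .L) .L)) (.N 6 7 (.N 6 8 .L .L) .L)) (.N 6 7 (.N 6 8 (.N 5
  6 .L .L) .L) .L))) (.N 5 6 (.N 2 5 (.N 2 8 (.N 2 7 (.N 2 4 (.N 2 5 (.N 2 8 .L .L) .L) .L) .L)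
  .L) .L) (.N 6 7 (.N 2 8 (.N 4 6 (.N 2 4 .L .L) .L) (.N 4 6 .L (.N 6 8 .L .L))) (.N 2 7 (.N 2 8
  (.N 2 4 (.N 7 8 .L .L) .L) .L) .L))))

theorem chk_h00 : chkS tr_h00 (pQ true 0 0) (gQ true) = true := by
  decide +kernel

end Vale.Agent.P038.K4.H706
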