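import Vale.Agent.P038.K4.H706b

set_option linter.all false
set_option maxRecDepth 100000

/-! Certificates (search: helper706, after the trees of helper38). -/

namespace Vale.Agent.P038.K4.H706

def tr_l21 : T := (.N 2 5 (.N 0 4 (.N 0 8 (.N 2 7 .L (.N 0 7 .L (.N 6 7 .L (.N 1 7 .L .L)))) (.N
  2 8 (.N 2 7 .L (.N 6 7 .L (.N 7 8 (.N 2 7 .L (.N 7 8 (.N 1 7 .L .L) .L)) .L))) (.N 6 8 (.N 6 7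
  .L (.N 2 7 .L (.N 2 7 .L (.N 1 7 .L .L)))) (.N 4 7 (.N 4 8 .L .L) (.N 2 7 .L (.N 2 7 .L (.N 1
  7 .L .L))))))) (.N 2 8 (.N 2 7 (.N 2 4 .L .L) (.N 6 7 .L (.N 7 8 (.N 2 7 (.N 6 7 .L .L) (.N 7
  8 (.N 1 4 (.N 1 7 .L (.N 4 7 .L .L)) (.N 4 7 (.N 4 6 .L .L) (.N 1 7 .L .L))) (.N 4 6 .L .L)))
  .L))) (.N 6 7 (.N 6 8 .L (.N 0 8 .L (.N 7 8 .L .L))) (.N 0 7 (.N 0 8 .L (.N 6 8 .L .L)) (.N 2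
  7 (.N 6 8 .L .L) (.N 2 7 .L (.N 1 4 (.N 1 7 .L (.N 4 7 .L .L)) (.N 1 7 .L .L)))))))) (.N 0 7
  (.N 0 5 (.N 0 4 (.N 0 8 .L (.N 6 8 .L (.N 4 8 .L .L))) (.N 6 8 .L (.N 0 8 (.N 7 8 .L .L) (.N 4
  7 .L .L)))) (.N 4 6 (.N 4 5 (.N 4 7 .L .L) (.N 1 5 .L .L)) (.N 5 6 (.N 1 5 .L .L) .L))) (.N 4
  6 (.N 0 4 (.N 1 5 (.N 1 7 .L .L) .L) (.N 1 5 (.N 1 4 (.N 1 7 .L (.N 4 7 .L .L)) (.N 1 7 .L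
  .L)) .L)) (.N 5 6 (.N 1 5 (.N 1 7 .L .L) .L) (.N 6 7 .L (.N 1 7 .L .L))))))

theorem chk_l21 : chkS tr_l21 (pQ false 2 1) (gQ false) = true := by
  decide +kernel

def tr_h01 : T := (.N 0 4 (.N 0 7 (.N 0 5 (.N 0 8 (.N 2 8 (.N 2 8 (.N 2 5 (.N 0 4 (.N 0 2 .L .L)
  .L) (.N 0 5 (.N 0 4 .L .L) .L)) (.N 0 5 (.N 0 4 .L .L) .L)) (.N 0 5 (.N 0 8 (.N 0 4 .L (.N 4 8
  .L .L)) (.N 0 4 .L .L)) .L)) (.N 2 8 (.N 2 5 (.N 0 2 .L (.N 2 8 (.N 2 5 (.N 0 2 .L .L) .L)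
  .L)) .L) (.N 6 8 .L .L))) (.N 2 5 (.N 2 8 (.N 0 2 .L (.N 2 8 (.N 2 5 (.N 0 2 .L .L) .L) .L))
  (.N 6 8 .L .L)) (.N 6 8 (.N 5 6 .L .L) .L))) (.N 2 5 (.N 2 8 (.N 6 7 (.N 2 5 (.N 2 8 .L .L)
  .L) (.N 2 7 (.N 2 5 (.N 2 8 .L .L) .L) .L)) (.N 6 7 (.N 6 8 .L .L) .L)) (.N 6 7 (.N 6 8 (.N 5
  6 .L .L) .L) .L))) (.N 5 6 (.N 2 5 (.N 2 8 (.N 2 7 (.N 2 4 (.N 2 5 (.N 2 8 .L .L) .L) .L) .L)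
  .L) .L) (.N 6 7 (.N 2 8 (.N 4 6 (.N 2 4 .L .L) .L) (.N 4 6 .L (.N 6 8 .L .L))) (.N 2 7 (.N 2 8
  (.N 2 4 (.N 7 8 .L .L) .L) .L) .L))))

theorem chk_h01 : chkS tr_h01 (pQ true 0 1) (gQ true) = true := by
  decide +kernel

def tr_h10 : T := (.N 0 4 (.N 2 5 (.N 6 8 (.N 6 7 (.N 5 6 (.N 5 8 .L .L) .L) (.N 2 7 (.N 5 8 .L
  .L) (.N 0 7 .L .L))) (.N 2 8 (.N 2 7 (.N 2 6 (.N 0 2 .L .L) .L) (.N 0 7 .L .L)) (.N 0 8 (.N 0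
  7 .L .L) .L))) (.N 5 6 (.N 0 5 (.N 0 8 (.N 0 7 .L .L) .L) .L) (.N 6 7 (.N 6 8 (.N 2 6 (.N 5 6
  .L .L) (.N 6 7 .L .L)) (.N 0 8 .L .L)) (.N 0 8 (.N 0 7 .L .L) .L)))) (.N 2 5 (.N 6 7 (.N 2 8
  (.N 4 6 (.N 2 4 .L .L) (.N 5 6 .L .L)) (.N 4 6 .L (.N 6 8 (.N 5 6 .L .L) .L))) (.N 2 7 (.N 2 8
  .L .L) .L)) (.N 5 6 .L (.N 6 7 (.N 4 6 .L (.N 6 8 (.N 2 6 (.N 2 5 .L .L) (.N 6 7 .L .L)) .L))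
  .L))))

theorem chk_h10 : chkS tr_h10 (pQ true 1 0) (gQ true) = true := by
  decide +kernel

def tr_h11 : T := (.N 6 7 (.N 2 8 (.N 2 5 (.N 4 6 (.N 0 4 (.N 0 2 .L .L) (.N 2 4 .L .L)) (.N 5 6
  (.N 0 2 .L .L) (.N 0 2 .L .L))) (.N 5 6 (.N 0 5 (.N 0 4 .L .L) .L) (.N 4 6 (.N 0 4 (.N 5 6 .L
  .L) .L) (.N 2 6 (.N 2 5 .L .L) (.N 5 6 .L .L))))) (.N 0 5 (.N 0 8 (.N 4 6 (.N 0 4 .L .L) .L)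
  (.N 6 8 (.N 4 6 .L .L) .L)) (.N 5 6 .L (.N 6 8 (.N 4 6 .L (.N 5 6 (.N 2 5 .L .L) .L)) .L))))
  (.N 2 5 (.N 2 8 (.N 2 7 (.N 0 4 (.N 0 2 .L .L) .L) (.N 0 4 (.N 0 7 .L .L) .L)) (.N 0 8 (.N 0 4
  (.N 0 7 .L .L) .L) .L)) (.N 0 5 (.N 0 8 (.N 0 4 (.N 0 7 .L .L) .L) .L) .L)))

theorem chk_h11 : chkS tr_h11 (pQ true 1 1) (gQ true) = true := by
  decide +kernel

def tr_h20 : T := (.N 2 5 (.N 0 7 (.N 0 4 (.N 2 8 (.N 0 2 .L .L) (.N 0 8 .L (.N 6 8 .L .L))) (.N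
  2 8 (.N 4 6 (.N 2 4 .L .L) .L) (.N 4 6 .L (.N 6 8 .L .L)))) (.N 6 7 (.N 2 8 (.N 4 6 (.N 2 4 .L
  .L) .L) (.N 4 6 .L (.N 6 8 .L .L))) (.N 2 7 (.N 2 8 (.N 2 4 .L .L) .L) .L))) (.N 5 6 (.N 0 5
  (.N 0 4 (.N 0 8 (.N 0 7 .L .L) .L) .L) .L) (.N 6 7 (.N 0 4 (.N 0 8 .L (.N 6 8 .L .L)) (.N 4 6
  .L (.N 6 8 .L .L))) (.N 0 4 (.N 0 8 (.N 0 7 .L .L) .L) .L))))

theorem chk_h20 : chkS tr_h20 (pQ true 2 0) (gQ true) = true := by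
  decide +kernel

def tr_h21 : T := (.N 2 8 (.N 2 5 (.N 0 4 (.N 2 7 (.N 0 2 .L .L) (.N 6 7 .L (.N 0 7 .L .L))) (.N
  2 7 (.N 4 6 (.N 2 4 .L .L) .L) (.N 6 7 (.N 4 6 .L .L) .L))) (.N 5 6 (.N 0 5 (.N 0 4 (.N 0 7 .L
  .L) .L) .L) (.N 6 7 (.N 0 4 .L (.N 4 6 .L .L)) (.N 0 4 (.N 0 7 .L .L) .L)))) (.N 0 5 (.N 0 4
  (.N 0 8 (.N 6 7 .L (.N 0 7 .L .L)) (.N 6 7 (.N 6 8 .L .L) .L)) (.N 6 7 (.N 6 8 (.N 4 6 .L .L)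
  .L) .L)) (.N 6 7 (.N 4 6 .L (.N 6 8 (.N 5 6 .L .L) .L)) .L)))

theorem chk_h21 : chkS tr_h21 (pQ true 2 1) (gQ true) = true := by
  decide +kernel

end Vale.Agent.P038.K4.H706
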