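import Vale.Agent.P038.K4.H706c
import Vale.Agent.P038.K4.H706d1
import Vale.Agent.P038.K4.H706d2
import Vale.Agent.P038.K4.H706d3

/-!
# P038, K4-free case: the twelve forms are nonnegative (hedge, helper706)
-/

namespace Vale.Agent.P038.K4.H706

theorem formAll : FormAll := by
  intro tc hc htc hhc
  interval_cases tc <;> interval_cases hc
  · exact ⟨low_of 0 0 _ chk_l00, high_of 0 0 _ chk_h00⟩
  · exact ⟨low_of 0 1 _ chk_l01, high_of 0 1 _ chk_h01⟩
  · exact ⟨low_of 1 0 _ chk_l10, high_of 1 0 _ chk_h10⟩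
  · exact ⟨low_of 1 1 _ chk_l11, high_of 1 1 _ chk_h11⟩
  · exact ⟨low_of 2 0 _ chk_l20, high_of 2 0 _ chk_h20⟩
  · exact ⟨low_of 2 1 _ chk_l21, high_of 2 1 _ chk_h21⟩

end Vale.Agent.P038.K4.H706
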