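import Vale.Agent.P038.K4.Red2

/-!
# P038, K4-free case: vertex reduction for quadratic potentials

`C + Cb b + Ce ep + Cs s + Ch h - W n^2 + al n f - be f^2 + M s`, where `n = m + b + ep + s`,
`f = b + h`, `M` concave, `al ≤ W + be`.
-/

namespace Vale.Agent.P038.K4

/-- the function on the window polytope -/
def QF (C Cb Ce Cs Ch W al be m : ℝ) (M : ℝ → ℝ) (b ep s h : ℝ) : ℝ :=
  C + Cb * b + Ce * ep + Cs * s + Ch * h - W * (m + b + ep + s) ^ 2
    + al * (m + b + ep + s) * (b + h) - be * (b + h) ^ 2 + M s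

/-- quadratic plus concave: chord test -/
theorem seg_quad_add (A B Q : ℝ) (M : ℝ → ℝ) (a c : ℝ) (hQ : Q ≤ 0)
    (hM : ∀ t, a ≤ t → t ≤ c → (c - t) * M a + (t - a) * M c ≤ (c - a) * M t) :
    Seg (fun t => A + B * t + Q * t ^ 2 + M t) a c := by
  apply seg_of_chord
  intro t h1 h2
  have h3 := hM t h1 h2
  have key : (c - a) * (A + B * t + Q * t ^ 2)
      - ((c - t) * (A + B * a + Q * a ^ 2) + (t - a) * (A + B * c + Q * c ^ 2))
      = (-Q) * (((t - a) * (c - t)) * (c - a)) := by ring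
  have h4 : 0 ≤ (-Q) * (((t - a) * (c - t)) * (c - a)) :=
    mul_nonneg (by linarith) (mul_nonneg (mul_nonneg (by linarith) (by linarith)) (by linarith))
  nlinarith

/-- quadratic: chord test -/
theorem seg_quad (A B Q : ℝ) (a c : ℝ) (hQ : Q ≤ 0) :
    Seg (fun t => A + B * t + Q * t ^ 2) a c := by
  have := seg_quad_add A B Q (fun _ => 0) a c hQ (by intro t _ _; simp)
  simpa using this

/-- the chord inequality for `M` on `[0, f]` -/
def Chord (M : ℝ → ℝ) (f : ℝ) : Prop :=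
  ∀ a t c, 0 ≤ a → a ≤ t → t ≤ c → c ≤ f → (c - t) * M a + (t - a) * M c ≤ (c - a) * M t

theorem chord_zero (f : ℝ) : Chord (fun _ => 0) f := by
  intro a t c _ _ _ _; simp

/-- reduction for `h = 0` (`de = 0`) or `h = ep + s` (`de = 1`) -/
theorem red_QF_aux (de C Cb Ce Cs Ch W al be m f g S : ℝ) (M : ℝ → ℝ) (hde : de = 0 ∨ de = 1)
    (hW : 0 ≤ W) (hbe : 0 ≤ be) (hal : al ≤ W + be) (hM : Chord M f)
    (hf : 0 ≤ f) (hg : 0 ≤ g)
    (hV : ∀ b ep s : ℝ, Vtx f g S b ep s →
      0 ≤ QF C Cb Ce Cs Ch W al be m M b ep s (de * (ep + s)))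
    (b ep s : ℝ) (hb : 0 ≤ b) (hep : 0 ≤ ep) (hs : 0 ≤ s) (hepg : ep ≤ g) (hsf : s ≤ f)
    (hS : b + ep + s ≤ S) : 0 ≤ QF C Cb Ce Cs Ch W al be m M b ep s (de * (ep + s)) := by
  refine red_abs (fun b ep s => QF C Cb Ce Cs Ch W al be m M b ep s (de * (ep + s))) f g S hf hg
    ?_ ?_ ?_ ?_ ?_ ?_ hV b ep s hb hep hs hepg hsf hS
  · intro ep s _ _ _ _ _
    refine seg_congr (fun t => ?_) (seg_quad
      (C + Ce * ep + Cs * s + Ch * (de * (ep + s)) - W * (m + ep + s) ^ 2
        + al * (m + ep + s) * (de * (ep + s)) - be * (de * (ep + s)) ^ 2 + M s)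
      (Cb - 2 * W * (m + ep + s) + al * (m + ep + s) + al * (de * (ep + s))
        - 2 * be * (de * (ep + s))) (-W + al - be) _ _ (by linarith))
    simp only [QF]; ring
  · intro ep _ _ hepS
    refine seg_congr (fun t => ?_) (seg_quad_add
      (C + Ce * ep + Ch * (de * ep) - W * (m + ep) ^ 2
        + al * (m + ep) * (de * ep) - be * (de * ep) ^ 2)
      (Cs + Ch * de - 2 * W * (m + ep) + al * (m + ep) * de + al * (de * ep)
        - 2 * be * (de * ep) * de) (-W + al * de - be * de ^ 2) M _ _ ?_ ?_)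
    · simp only [QF]; ring
    · rcases hde with h | h <;> rw [h] <;> linarith
    · intro t h1 h2
      exact hM _ _ _ le_rfl h1 h2 (min_le_left _ _)
  · intro s _ _ _
    refine seg_congr (fun t => ?_) (seg_quad
      (C + Cs * s + Ch * (de * s) - W * (m + s) ^ 2
        + al * (m + s) * (de * s) - be * (de * s) ^ 2 + M s)
      (Ce + Ch * de - 2 * W * (m + s) + al * (m + s) * de + al * (de * s)
        - 2 * be * (de * s) * de) (-W + al * de - be * de ^ 2) _ _ ?_)
    · simp only [QF]; ring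
    · rcases hde with h | h <;> rw [h] <;> linarith
  · intro ep _ _ hepS
    refine seg_congr (fun t => ?_) (seg_quad_add
      (C + Cb * (S - ep) + Ce * ep + Ch * (de * ep) - W * (m + S) ^ 2
        + al * (m + S) * (S - ep + de * ep) - be * (S - ep + de * ep) ^ 2)
      (-Cb + Cs + Ch * de + al * (m + S) * (de - 1)
        - 2 * be * (S - ep + de * ep) * (de - 1)) (- be * (de - 1) ^ 2) M _ _ ?_ ?_)
    · simp only [QF]; ring
    · have : 0 ≤ be * (de - 1) ^ 2 := mul_nonneg hbe (sq_nonneg _)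
      linarith
    · intro t h1 h2
      exact hM _ _ _ le_rfl h1 h2 (min_le_left _ _)
  · intro s _ _ _
    refine seg_congr (fun t => ?_) (seg_quad
      (C + Cb * (S - s) + Cs * s + Ch * (de * s) - W * (m + S) ^ 2
        + al * (m + S) * (S - s + de * s) - be * (S - s + de * s) ^ 2 + M s)
      (-Cb + Ce + Ch * de + al * (m + S) * (de - 1)
        - 2 * be * (S - s + de * s) * (de - 1)) (- be * (de - 1) ^ 2) _ _ ?_)
    · simp only [QF]; ring
    · have : 0 ≤ be * (de - 1) ^ 2 := mul_nonneg hbe (sq_nonneg _)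
      linarith
  · intro hS0 hSfg
    refine seg_congr (fun t => ?_) (seg_quad_add
      (C + Ce * S + Ch * (de * S) - W * (m + S) ^ 2 + al * (m + S) * (de * S)
        - be * (de * S) ^ 2) (Cs - Ce) 0 M _ _ le_rfl ?_)
    · simp only [QF]; ring
    · intro t h1 h2
      exact hM _ _ _ (le_max_left _ _) h1 h2 (min_le_left _ _)

/-- the reduction with the variable `h` -/
theorem red_QF (C Cb Ce Cs Ch W al be m f g S : ℝ) (M : ℝ → ℝ)
    (hW : 0 ≤ W) (hbe : 0 ≤ be) (hal : al ≤ W + be) (hM : Chord M f)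
    (hf : 0 ≤ f) (hg : 0 ≤ g)
    (hV : ∀ b ep s h : ℝ, Vtx f g S b ep s → (h = 0 ∨ h = ep + s) →
      0 ≤ QF C Cb Ce Cs Ch W al be m M b ep s h)
    (b ep s h : ℝ) (hb : 0 ≤ b) (hep : 0 ≤ ep) (hs : 0 ≤ s) (hepg : ep ≤ g) (hsf : s ≤ f)
    (hS : b + ep + s ≤ S) (hh : 0 ≤ h) (hh2 : h ≤ ep + s) :
    0 ≤ QF C Cb Ce Cs Ch W al be m M b ep s h := by
  have h0 := red_QF_aux 0 C Cb Ce Cs Ch W al be m f g S M (Or.inl rfl) hW hbe hal hM hf hg
    (fun b ep s hv => hV b ep s _ hv (Or.inl (by ring))) b ep s hb hep hs hepg hsf hS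
  have h1 := red_QF_aux 1 C Cb Ce Cs Ch W al be m f g S M (Or.inr rfl) hW hbe hal hM hf hg
    (fun b ep s hv => hV b ep s _ hv (Or.inr (by ring))) b ep s hb hep hs hepg hsf hS
  have hq := seg_quad
    (C + Cb * b + Ce * ep + Cs * s - W * (m + b + ep + s) ^ 2
      + al * (m + b + ep + s) * b - be * b ^ 2 + M s)
    (Ch + al * (m + b + ep + s) - 2 * be * b) (-be) 0 (ep + s) (by linarith) h hh hh2
    (by simp only [QF] at h0; ring_nf at h0 ⊢; exact h0)
    (by simp only [QF] at h1; ring_nf at h1 ⊢; exact h1)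
  simp only [QF]
  ring_nf at hq ⊢
  exact hq

/-- the positive part of the sharper Mantel step is concave in `s` -/
theorem chord_negsq (k D f : ℝ) (hk : 0 ≤ k) :
    Chord (fun s => -(k * (max 0 (D + s)) ^ 2)) f := by
  intro a t c _ h1 h2 _
  have hconv : (c - a) * (max 0 (D + t)) ^ 2
      ≤ (c - t) * (max 0 (D + a)) ^ 2 + (t - a) * (max 0 (D + c)) ^ 2 := by
    set A := max 0 (D + a) with hA
    set Cc := max 0 (D + c) with hC
    have hA0 : 0 ≤ A := le_max_left _ _
    have hC0 : 0 ≤ Cc := le_max_left _ _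
    have hT0 : 0 ≤ max 0 (D + t) := le_max_left _ _
    have h3 : (c - a) * max 0 (D + t) ≤ (c - t) * A + (t - a) * Cc := by
      rcases le_total (D + t) 0 with h | h
      · rw [max_eq_left h, mul_zero]
        exact add_nonneg (mul_nonneg (by linarith) hA0) (mul_nonneg (by linarith) hC0)
      · rw [max_eq_right h]
        have e1 : D + a ≤ A := le_max_right _ _
        have e2 : D + c ≤ Cc := le_max_right _ _
        nlinarith [mul_le_mul_of_nonneg_left e1 (show 0 ≤ c - t by linarith),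
          mul_le_mul_of_nonneg_left e2 (show 0 ≤ t - a by linarith)]
    rcases eq_or_lt_of_le (h1.trans h2) with e | e
    · have e3 : t = a := le_antisymm (e ▸ h2) h1
      rw [e3, ← e]; simp
    · have hca : 0 < c - a := by linarith
      have h4 : ((c - a) * max 0 (D + t)) ^ 2 ≤ ((c - t) * A + (t - a) * Cc) ^ 2 :=
        pow_le_pow_left₀ (mul_nonneg hca.le hT0) h3 2
      have h5 : ((c - t) * A + (t - a) * Cc) ^ 2
          = (c - a) * ((c - t) * A ^ 2 + (t - a) * Cc ^ 2) - (c - t) * (t - a) * (A - Cc) ^ 2 := by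
        ring
      have h6 : 0 ≤ (c - t) * (t - a) * (A - Cc) ^ 2 :=
        mul_nonneg (mul_nonneg (by linarith) (by linarith)) (sq_nonneg _)
      have h7 : (c - a) * ((c - a) * (max 0 (D + t)) ^ 2)
          ≤ (c - a) * ((c - t) * A ^ 2 + (t - a) * Cc ^ 2) := by nlinarith
      exact le_of_mul_le_mul_left h7 hca
  have := mul_le_mul_of_nonneg_left hconv hk
  nlinarith

end Vale.Agent.P038.K4
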