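import Vale.Agent.P038.K4.Form
import Vale.Agent.P038.K4.Red3

/-!
# P038, K4-free case: the local inequality from the twelve quartic forms
-/

namespace Vale.Agent.P038.K4

/-- `Form` is affine in `(x2, t)` -/
theorem form_xt (sg la x0 x1 x2 f0 n0 n1 m b ph ep f1 t X : ℝ) :
    X * Form sg la x0 x1 x2 f0 n0 n1 m b ph ep f1 t
      = (X - x2) * Form sg la x0 x1 0 f0 n0 n1 m b ph ep f1 0
        + (x2 - t) * Form sg la x0 x1 X f0 n0 n1 m b ph ep f1 0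
        + t * Form sg la x0 x1 X f0 n0 n1 m b ph ep f1 X := by
  unfold Form Ph
  ring

theorem form_xt_nonneg (sg la x0 x1 x2 f0 n0 n1 m b ph ep f1 t X : ℝ) (ht : 0 ≤ t)
    (htx : t ≤ x2) (hxX : x2 ≤ X)
    (h0 : 0 ≤ Form sg la x0 x1 0 f0 n0 n1 m b ph ep f1 0)
    (h1 : 0 ≤ Form sg la x0 x1 X f0 n0 n1 m b ph ep f1 0)
    (h2 : 0 ≤ Form sg la x0 x1 X f0 n0 n1 m b ph ep f1 X) :
    0 ≤ Form sg la x0 x1 x2 f0 n0 n1 m b ph ep f1 t := by
  rcases eq_or_lt_of_le (ht.trans (htx.trans hxX)) with h | h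
  · have e1 : x2 = 0 := le_antisymm (h ▸ hxX) (ht.trans htx)
    have e2 : t = 0 := le_antisymm (e1 ▸ htx) ht
    rw [e1, e2]; exact h0
  · have key := form_xt sg la x0 x1 x2 f0 n0 n1 m b ph ep f1 t X
    have h3 : 0 ≤ X * Form sg la x0 x1 x2 f0 n0 n1 m b ph ep f1 t := by
      rw [key]
      exact add_nonneg (add_nonneg (mul_nonneg (by linarith) h0) (mul_nonneg (by linarith) h1))
        (mul_nonneg ht h2)
    exact nonneg_of_mul_nonneg_right h3 h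

/-- `Form` is a concave quadratic in `h`, `f1 = b + h` -/
theorem form_h_nonneg (sg la x0 x1 x2 f0 n0 n1 m b ph ep t c h : ℝ) (hs : 0 ≤ sg * (sg - n0))
    (hh : 0 ≤ h) (hc : h ≤ c)
    (h0 : 0 ≤ Form sg la x0 x1 x2 f0 n0 n1 m b ph ep (b + 0) t)
    (h1 : 0 ≤ Form sg la x0 x1 x2 f0 n0 n1 m b ph ep (b + c) t) :
    0 ≤ Form sg la x0 x1 x2 f0 n0 n1 m b ph ep (b + h) t := by
  have key : ∀ u : ℝ, Form sg la x0 x1 x2 f0 n0 n1 m b ph ep (b + u) t
      = Form sg la x0 x1 x2 f0 n0 n1 m b ph ep (b + 0) t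
        + (Form sg la x0 x1 x2 f0 n0 n1 m b ph ep (b + 1) t
          - Form sg la x0 x1 x2 f0 n0 n1 m b ph ep (b + 0) t
          - (-(7 / 25 * (sg * (sg - n0))))) * u
        + (-(7 / 25 * (sg * (sg - n0)))) * u ^ 2 := by
    intro u
    unfold Form Ph
    ring
  exact (seg_congr key (seg_quad _ _ _ 0 c (by linarith))) h hh hc h0 h1

/-- the expression of the local inequality times `q0`, `p = f2 = t` -/
theorem q_mul_N (la x0 x1 x2 f0 g0 m b ph ep f1 t n1 : ℝ) (hq : 1 - (f0 + g0) ≠ 0) :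
    (1 - (f0 + g0)) * ((1 - la) * (f0 + ep + b * (1 - x0 / (1 - (f0 + g0)))
        + m * (3 / 4 * m - ph) / (1 - (f0 + g0)) - x1 * t / (1 - (f0 + g0)))
      + la * ((x0 - (f0 + g0)) - (x1 - n1))
      - 63 / 50 * (f0 + g0) ^ 2 / (1 - (f0 + g0))
        * (49 / 100 * x0 * (1 - x0) - x1 * (x1 + x2 + 7 / 5 * x0 - 1))
      + Ph 1 x1 n1 f1 x2 t - Ph 1 x0 (f0 + g0) f0 x1 f1)
    = Form 1 la x0 x1 x2 f0 (f0 + g0) n1 m b ph ep f1 t := by
  unfold Form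
  have e1 : (1 - (f0 + g0)) * (b * (1 - x0 / (1 - (f0 + g0)))) = b * (1 - (f0 + g0) - x0) := by
    field_simp
  have e2 : (1 - (f0 + g0)) * (m * (3 / 4 * m - ph) / (1 - (f0 + g0))) = m * (3 / 4 * m - ph) := by
    field_simp
  have e3 : (1 - (f0 + g0)) * (x1 * t / (1 - (f0 + g0))) = x1 * t := by
    field_simp
  have e4 : (1 - (f0 + g0)) * (63 / 50 * (f0 + g0) ^ 2 / (1 - (f0 + g0)))
      = 63 / 50 * (f0 + g0) ^ 2 := by
    field_simp
  generalize hA : b * (1 - x0 / (1 - (f0 + g0))) = A at *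
  generalize hB : m * (3 / 4 * m - ph) / (1 - (f0 + g0)) = B at *
  generalize hC : x1 * t / (1 - (f0 + g0)) = C at *
  generalize hD : 63 / 50 * (f0 + g0) ^ 2 / (1 - (f0 + g0)) = D at *
  linear_combination (1 - la) * e1 + (1 - la) * e2 - (1 - la) * e3
    - (49 / 100 * x0 * (1 - x0) - x1 * (x1 + x2 + 7 / 5 * x0 - 1)) * e4

/-- the inhomogeneous potential -/
noncomputable def Pot7 (x n f x' f' : ℝ) : ℝ :=
  f * (99 / 100 - 19 / 50 * x - 87 / 100 * x' - 141 / 100 * x ^ 2 + 39 / 100 * x * x')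
    + f' * (63 / 50 * x - 17 / 100 * x ^ 2) + 14 / 25 * f * f'
    - (47 / 100 + 21 / 100 * x) * n ^ 2 + 103 / 100 * n * f + 13 / 50 * n * f'
    - 7 / 25 * f ^ 2 - 12 / 25 * x * n * f'

theorem Ph_one (x n f x' f' : ℝ) : Ph 1 x n f x' f' = Pot7 x n f x' f' := by
  unfold Ph Pot7; ring

/-- The local inequality with the constants of the certificate, from the twelve forms. -/
theorem local_of_forms (hF : FormAll) :
    ∀ x0 x1 x2 f0 g0 m b ph ep h f2 g2 p : ℝ,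
    0≤x1 → 0≤x2 → 0≤f0 → 0≤g0 → 0 ≤ m → 0≤b → 0≤ph → 0≤ep → 0≤h → 0≤f2 → 0≤g2 → 0≤p →
    0<x0 → x0<1 → f0+g0≤x0 → x0+x1≤1 → x1+x2≤1 → m+b+ep+(f0-ph)≤x1 → m+b≤1-(f0+g0) →
    ph≤f0 → ep≤g0 → h≤ep+(f0-ph) → f2+g2≤x2 → p≤f2 → p≤1-(f0+g0) →
    0 ≤ (1-max 0 (2*x0-1))*(f0+ep+b*(1-x0/(1-(f0+g0)))+m*(3/4*m-ph)/(1-(f0+g0))
        -x1*p/(1-(f0+g0)))
      + max 0 (2*x0-1)*((x0-(f0+g0))-(x1-(m+b+ep+(f0-ph))))
      - 63/50*(f0+g0)^2/(1-(f0+g0))*(49/100*x0*(1-x0)-x1*(x1+x2+7/5*x0-1))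
      + Pot7 x1 (m+b+ep+(f0-ph)) (b+h) x2 f2 - Pot7 x0 (f0+g0) f0 x1 (b+h) := by
  intro x0 x1 x2 f0 g0 m b ph ep h f2 g2 p hx1 hx2 hf0 hg0 hm hb hph hep hh hf2 hg2 hp hx0 hx01
    hn0 hx0x1 hx1x2 hn1 _ hphf hepg hhr hf2x hpf _
  have hq : 0 < 1 - (f0 + g0) := by linarith
  -- the form is nonnegative for all choices
  have main : ∀ la : ℝ, (∀ tc hc : ℕ, tc ≤ 2 → hc ≤ 1 →
      0 ≤ Form 1 la x0 x1 (if tc = 0 then 0 else 1 - x1) f0 (f0 + g0) (m + b + ep + (f0 - ph)) m b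
        ph ep (b + if hc = 0 then 0 else ep + (f0 - ph)) (if tc = 2 then 1 - x1 else 0)) →
      ∀ t, 0 ≤ t → t ≤ x2 →
      0 ≤ Form 1 la x0 x1 x2 f0 (f0 + g0) (m + b + ep + (f0 - ph)) m b ph ep (b + h) t := by
    intro la H t ht htx
    have H' : ∀ tc : ℕ, tc ≤ 2 →
        0 ≤ Form 1 la x0 x1 (if tc = 0 then 0 else 1 - x1) f0 (f0 + g0) (m + b + ep + (f0 - ph))
          m b ph ep (b + h) (if tc = 2 then 1 - x1 else 0) := by
      intro tc htc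
      refine form_h_nonneg _ _ _ _ _ _ _ _ _ _ _ _ _ (ep + (f0 - ph)) h (by linarith) hh hhr
        ?_ ?_
      · simpa using H tc 0 htc (by norm_num)
      · simpa using H tc 1 htc (by norm_num)
    refine form_xt_nonneg _ _ _ _ _ _ _ _ _ _ _ _ _ _ (1 - x1) ht htx (by linarith) ?_ ?_ ?_
    · simpa using H' 0 (by norm_num)
    · simpa using H' 1 (by norm_num)
    · simpa using H' 2 (by norm_num)
  -- identification of the variables
  have hform : ∀ la : ℝ, ∀ tc hc : ℕ,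
      Form9 la (if tc = 0 then 0 else ph + (f0 - ph) + (g0 - ep) + ep + (x0 - (f0 + g0))
          + (1 - x0 - x1))
        (if tc = 2 then ph + (f0 - ph) + (g0 - ep) + ep + (x0 - (f0 + g0)) + (1 - x0 - x1) else 0)
        (if hc = 0 then 0 else (f0 - ph) + ep) ph (f0 - ph) (g0 - ep) ep m b (x0 - (f0 + g0))
        (x1 - (m + b + ep + (f0 - ph))) (1 - x0 - x1)
      = Form 1 la x0 x1 (if tc = 0 then 0 else 1 - x1) f0 (f0 + g0) (m + b + ep + (f0 - ph)) m b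
        ph ep (b + if hc = 0 then 0 else ep + (f0 - ph)) (if tc = 2 then 1 - x1 else 0) := by
    intro la tc hc
    unfold Form9
    have e0 : ph + (f0 - ph) + (g0 - ep) + ep + (x0 - (f0 + g0)) + (1 - x0 - x1) = 1 - x1 := by
      ring
    have e1 : ph + 2 * (f0 - ph) + (g0 - ep) + 2 * ep + m + b + (x0 - (f0 + g0))
        + (x1 - (m + b + ep + (f0 - ph))) + (1 - x0 - x1) = 1 := by ring
    have e2 : ph + (f0 - ph) + (g0 - ep) + ep + (x0 - (f0 + g0)) = x0 := by ring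
    have e3 : m + b + (f0 - ph) + ep + (x1 - (m + b + ep + (f0 - ph))) = x1 := by ring
    have e4 : ph + (f0 - ph) = f0 := by ring
    have e5 : ph + (f0 - ph) + (g0 - ep) + ep = f0 + g0 := by ring
    have e6 : m + b + (f0 - ph) + ep = m + b + ep + (f0 - ph) := by ring
    have e7 : (f0 - ph) + ep = ep + (f0 - ph) := by ring
    rw [e0, e1, e2, e3, e5, e6, e4, e7]
  -- reduction of `f2` to `p`
  have hcoef : 0 ≤ 63 / 50 * x1 - 17 / 100 * x1 ^ 2 + 14 / 25 * (b + h)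
      + 13 / 50 * (m + b + ep + (f0 - ph)) - 12 / 25 * x1 * (m + b + ep + (f0 - ph)) := by
    have h1 : 0 ≤ m + b + ep + (f0 - ph) := by linarith
    have h2 : x1 ≤ 1 := by linarith
    nlinarith [mul_nonneg hx1 (show 0 ≤ 1 - x1 by linarith), mul_nonneg hx1 h1,
      mul_nonneg hx1 (show 0 ≤ x1 - (m + b + ep + (f0 - ph)) by linarith)]
  have hred : ∀ la : ℝ, 0 ≤ Form 1 la x0 x1 x2 f0 (f0 + g0) (m + b + ep + (f0 - ph)) m b ph ep
        (b + h) p →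
      0 ≤ (1-la)*(f0+ep+b*(1-x0/(1-(f0+g0)))+m*(3/4*m-ph)/(1-(f0+g0))
        -x1*p/(1-(f0+g0)))
      + la*((x0-(f0+g0))-(x1-(m+b+ep+(f0-ph))))
      - 63/50*(f0+g0)^2/(1-(f0+g0))*(49/100*x0*(1-x0)-x1*(x1+x2+7/5*x0-1))
      + Pot7 x1 (m+b+ep+(f0-ph)) (b+h) x2 f2 - Pot7 x0 (f0+g0) f0 x1 (b+h) := by
    intro la hla
    rw [← q_mul_N la x0 x1 x2 f0 g0 m b ph ep (b + h) p (m + b + ep + (f0 - ph)) hq.ne'] at hla
    have h1 := nonneg_of_mul_nonneg_right hla hq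
    rw [Ph_one, Ph_one] at h1
    have h2 : Pot7 x1 (m+b+ep+(f0-ph)) (b+h) x2 f2
        = Pot7 x1 (m+b+ep+(f0-ph)) (b+h) x2 p + (f2 - p) * (63 / 50 * x1 - 17 / 100 * x1 ^ 2
          + 14 / 25 * (b + h) + 13 / 50 * (m + b + ep + (f0 - ph))
          - 12 / 25 * x1 * (m + b + ep + (f0 - ph))) := by
      unfold Pot7; ring
    have h3 := mul_nonneg (show 0 ≤ f2 - p by linarith) hcoef
    rw [h2]
    linarith
  apply hred
  rcases le_total (2 * x0 - 1) 0 with hc | hc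
  · rw [max_eq_left hc]
    refine main 0 (fun tc hc' h1 h2 => ?_) p hp (by linarith)
    rw [← hform 0 tc hc']
    exact (hF tc hc' h1 h2).1 ph (f0 - ph) (g0 - ep) ep m b (x0 - (f0 + g0))
      (x1 - (m + b + ep + (f0 - ph))) (1 - x0 - x1) hph (by linarith) (by linarith) hep hm hb
      (by linarith) (by linarith) (by linarith) (by linarith)
  · rw [max_eq_right hc]
    refine main (2 * x0 - 1) (fun tc hc' h1 h2 => ?_) p hp (by linarith)
    rw [← hform (2 * x0 - 1) tc hc']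
    have e8 : 2 * x0 - 1 = ph + (g0 - ep) + (x0 - (f0 + g0))
        - (m + b + (x1 - (m + b + ep + (f0 - ph))) + (1 - x0 - x1)) := by ring
    have := (hF tc hc' h1 h2).2 ph (f0 - ph) (g0 - ep) ep m b (x0 - (f0 + g0))
      (x1 - (m + b + ep + (f0 - ph))) (1 - x0 - x1) hph (by linarith) (by linarith) hep hm hb
      (by linarith) (by linarith) (by linarith) (by linarith)
    rw [← e8] at this
    exact this

end Vale.Agent.P038.K4
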