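import Vale.Agent.P038.K4.Gen
import Vale.Agent.P038.K4.Reduce

/-!
# P038, K4-free case: `LocalGen` with the constants of the certificate, from the twelve forms
-/

namespace Vale.Agent.P038.K4

theorem localGen38 (hF : FormAll) : LocalGen (7/10) lm38 kp38 P38 := by
  intro x0 x1 x2 f0 g0 m b ph ep h f2 g2 p a1 a2 a3 a4 a5 a6 a7 a8 a9 a10 a11 a12 a13 a14 a15 a16
    a17 a18 a19 a20 a21 a22 a23 a24 a25
  have key := local_of_forms hF x0 x1 x2 f0 g0 m b ph ep h f2 g2 p a1 a2 a3 a4 a5 a6 a7 a8 a9 a10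
    a11 a12 a13 a14 a15 a16 a17 a18 a19 a20 a21 a22 a23 a24 a25
  have e1 : ((7:ℝ)/10)^2 = 49/100 := by norm_num
  have e2 : 2*((7:ℝ)/10) = 7/5 := by norm_num
  have e3 : ∀ x n f y n' f', P38 x n f y n' f' = Pot7 x n f y f' := by
    intro x n f y n' f'
    unfold P38 Pot7
    ring
  unfold lm38 kp38
  rw [e1, e2, e3, e3]
  exact key

end Vale.Agent.P038.K4
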