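import Vale.Agent.P038.K4.H706All
import Vale.Agent.P038.K4.Local38
import Vale.Agent.P038.K4.Final

/-! # The second neighbourhood theorem, with the fast certificates `H706All` -/

namespace Vale.Agent.P038.K4.H706

variable {V : Type*} [Fintype V] [Nonempty V]

/-- The weighted second neighbourhood theorem without bad `K₄`s. -/
theorem snc_weighted (D : OGraph V) (hD : NoBadK4 D) (w : V → ℝ) (hw : ∀ v, 0 ≤ w v) :
    ∃ v, ∑ x ∈ N1 D v, w x ≤ ∑ x ∈ N2 D v, w x :=
  k4_weighted_38 (localGen38 formAll) D hD w hw

/-- The second neighbourhood theorem without bad `K₄`s. -/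
theorem snc_card (D : OGraph V) (hD : NoBadK4 D) : ∃ v, (N1 D v).card ≤ (N2 D v).card :=
  k4_card_38 (localGen38 formAll) D hD

end Vale.Agent.P038.K4.H706
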