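import Vale.Agent.P038.K4.H706

set_option linter.all false

/-!
# P038, K4-free case: the twelve forms as Horner trees (hedge, helper706)
-/

namespace Vale.Agent.P038.K4.H706

noncomputable instance : Add Q := ⟨add⟩
noncomputable instance : Mul Q := ⟨mul⟩
noncomputable instance : Sub Q := ⟨fun a b => add (neg b) a⟩

theorem ev_add' (a b : Q) (ρ : ℕ → ℝ) : ev (a + b) ρ = ev a ρ + ev b ρ := ev_add a b ρ
theorem ev_mul' (a b : Q) (ρ : ℕ → ℝ) : ev (a * b) ρ = ev a ρ * ev b ρ := ev_mul a b ρ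
theorem ev_sub' (a b : Q) (ρ : ℕ → ℝ) : ev (a - b) ρ = ev a ρ - ev b ρ := by
  show ev (add (neg b) a) ρ = _
  rw [ev_add, ev_neg]; ring

/-- variable -/
noncomputable def v (j : ℕ) : Q := mvk 1 0 j

theorem ev_v (j : ℕ) (ρ : ℕ → ℝ) : ev (v j) ρ = ρ j := by rw [v, ev_mvk]; simp

/-- `100 * Ph` -/
noncomputable def PhQ (sg x n f y f' : Q) : Q :=
  f * (smul 99 (sg * sg) - smul 38 (x * sg) - smul 87 (y * sg) - smul 141 (x * x) + smul 39 (x * y))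
    + f' * (smul 126 (x * sg) - smul 17 (x * x)) + smul 56 (f * f' * sg)
    - (smul 47 sg + smul 21 x) * (n * n) + smul 103 (n * f * sg) + smul 26 (n * f' * sg)
    - smul 28 (f * f * sg) - smul 48 (x * n * f')

/-- `5000 * Form` -/
noncomputable def FormQ (sg la x0 x1 x2 f0 n0 n1 m b ph ep f1 t : Q) : Q :=
  smul 1250 (sg * (sg - la) * (smul 4 ((sg - n0) * (f0 + ep) + b * (sg - n0 - x0) - x1 * t)
      + m * (smul 3 m - smul 4 ph)))
    + smul 5000 (sg * la * ((sg - n0) * ((x0 - n0) - (x1 - n1))))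
    - smul 63 (n0 * n0 * (smul 49 (x0 * (sg - x0))
        - x1 * (smul 100 x1 + smul 100 x2 + smul 140 x0 - smul 100 sg)))
    + smul 50 ((sg - n0) * (PhQ sg x1 n1 f1 x2 t - PhQ sg x0 n0 f0 x1 f1))

theorem ev_PhQ (sg x n f y f' : Q) (ρ : ℕ → ℝ) : ev (PhQ sg x n f y f') ρ =
    100 * Ph (ev sg ρ) (ev x ρ) (ev n ρ) (ev f ρ) (ev y ρ) (ev f' ρ) := by
  simp only [PhQ, Ph, ev_add', ev_mul', ev_sub', ev_smul]
  push_cast
  ring

theorem ev_FormQ (sg la x0 x1 x2 f0 n0 n1 m b ph ep f1 t : Q) (ρ : ℕ → ℝ) :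
    ev (FormQ sg la x0 x1 x2 f0 n0 n1 m b ph ep f1 t) ρ =
    5000 * Form (ev sg ρ) (ev la ρ) (ev x0 ρ) (ev x1 ρ) (ev x2 ρ) (ev f0 ρ) (ev n0 ρ) (ev n1 ρ)
      (ev m ρ) (ev b ρ) (ev ph ρ) (ev ep ρ) (ev f1 ρ) (ev t ρ) := by
  simp only [FormQ, Form, ev_add', ev_mul', ev_sub', ev_smul, ev_PhQ]
  push_cast
  ring

/-- sum of variables -/
noncomputable def lin : List ℕ → Q
  | [] => .k 0 0
  | j :: l => add (v j) (lin l)

/-- the linear form `±((m+b+e1+z) - (ph+r+e0))` -/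
noncomputable def gQ (hi : Bool) : Q :=
  if hi then lin [0, 2, 6] - lin [4, 5, 7, 8] else lin [4, 5, 7, 8] - lin [0, 2, 6]

/-- `5000 * Form9` -/
noncomputable def pQ (hi : Bool) (tc hc : ℕ) : Q :=
  FormQ (lin [0, 1, 1, 2, 3, 3, 4, 5, 6, 7, 8])
    (if hi then lin [0, 2, 6] - lin [4, 5, 7, 8] else .k 0 0)
    (lin [0, 1, 2, 3, 6]) (lin [4, 5, 1, 3, 7])
    (if tc = 0 then .k 0 0 else lin [0, 1, 2, 3, 6, 8])
    (lin [0, 1]) (lin [0, 1, 2, 3]) (lin [4, 5, 1, 3]) (lin [4]) (lin [5]) (lin [0]) (lin [3])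
    (if hc = 0 then lin [5] else lin [5, 1, 3])
    (if tc = 2 then lin [0, 1, 2, 3, 6, 8] else .k 0 0)

end Vale.Agent.P038.K4.H706
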