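import Vale.Agent.P038.K4.H706b

set_option linter.all false

/-!
# P038, K4-free case: from checked certificates to the forms (hedge, helper706)
-/

namespace Vale.Agent.P038.K4.H706

open Filter Topology

theorem ev_cont : ∀ (P : Q) (ρ w : ℕ → ℝ), Continuous fun t : ℝ => ev P (fun i => ρ i + t * w i)
  | .k a a', ρ, w => continuous_const
  | .n p q, ρ, w => by
    have h1 := ev_cont p (fun i => ρ (i + 1)) (fun i => w (i + 1))
    have h2 := ev_cont q ρ w
    have h3 : Continuous fun t : ℝ => ρ 0 + t * w 0 := by fun_prop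
    exact h1.add (h3.mul h2)

/-- the boundary `G = 0` by continuity -/
theorem good_le {G P : Q} (h : Good G P) (ρ w : ℕ → ℝ) (hr : ∀ i, 0 ≤ ρ i) (hw : ∀ i, 0 ≤ w i)
    (hg : ∀ t : ℝ, 0 < t → 0 < ev G (fun i => ρ i + t * w i)) : 0 ≤ ev P ρ := by
  have hc := (ev_cont P ρ w).tendsto 0
  have e : (fun i => ρ i + 0 * w i) = ρ := by funext i; ring
  rw [e] at hc
  refine ge_of_tendsto (hc.mono_left (nhdsWithin_le_nhds (s := Set.Ioi 0))) ?_
  filter_upwards [self_mem_nhdsWithin] with t ht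
  have ht' : (0 : ℝ) < t := ht
  exact h _ (fun i => add_nonneg (hr i) (mul_nonneg ht'.le (hw i))) (hg t ht')

/-- the assignment of the nine variables -/
def yy (ph s r ep m b e0 e1 z : ℝ) : ℕ → ℝ
  | 0 => ph
  | 1 => s
  | 2 => r
  | 3 => ep
  | 4 => m
  | 5 => b
  | 6 => e0
  | 7 => e1
  | 8 => z
  | _ => 0

theorem yy_nonneg {ph s r ep m b e0 e1 z : ℝ} (h1 : 0 ≤ ph) (h2 : 0 ≤ s) (h3 : 0 ≤ r) (h4 : 0 ≤ ep)
    (h5 : 0 ≤ m) (h6 : 0 ≤ b) (h7 : 0 ≤ e0) (h8 : 0 ≤ e1) (h9 : 0 ≤ z) (i : ℕ) :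
    0 ≤ yy ph s r ep m b e0 e1 z i := by
  unfold yy
  split <;> first | assumption | exact le_rfl

theorem ev_z (ρ : ℕ → ℝ) : ev (.k 0 0) ρ = 0 := by rw [ev_k]; simp

theorem ev_pQ (hi : Bool) (tc hc : ℕ) (ph s r ep m b e0 e1 z : ℝ) :
    ev (pQ hi tc hc) (yy ph s r ep m b e0 e1 z)
      = 5000 * Form9 (if hi then ph + r + e0 - (m + b + e1 + z) else 0)
        (if tc = 0 then 0 else ph + s + r + ep + e0 + z)
        (if tc = 2 then ph + s + r + ep + e0 + z else 0) (if hc = 0 then 0 else s + ep)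
        ph s r ep m b e0 e1 z := by
  have a0 : ev (if hi then lin [0, 2, 6] - lin [4, 5, 7, 8] else .k 0 0)
      (yy ph s r ep m b e0 e1 z) = if hi then ph + r + e0 - (m + b + e1 + z) else 0 := by
    cases hi
    · simp [ev_z]
    · simp only [if_true, ev_sub', lin, ev_add, ev_v, ev_z, yy]; ring
  have a1 : ev (if tc = 0 then .k 0 0 else lin [0, 1, 2, 3, 6, 8]) (yy ph s r ep m b e0 e1 z)
      = if tc = 0 then 0 else ph + s + r + ep + e0 + z := by
    by_cases h : tc = 0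
    · rw [if_pos h, if_pos h, ev_z]
    · rw [if_neg h, if_neg h]; simp only [lin, ev_add, ev_v, ev_z, yy]; ring
  have a2 : ev (if tc = 2 then lin [0, 1, 2, 3, 6, 8] else .k 0 0) (yy ph s r ep m b e0 e1 z)
      = if tc = 2 then ph + s + r + ep + e0 + z else 0 := by
    by_cases h : tc = 2
    · rw [if_pos h, if_pos h]; simp only [lin, ev_add, ev_v, ev_z, yy]; ring
    · rw [if_neg h, if_neg h, ev_z]
  have a3 : ev (if hc = 0 then lin [5] else lin [5, 1, 3]) (yy ph s r ep m b e0 e1 z)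
      = b + if hc = 0 then 0 else s + ep := by
    by_cases h : hc = 0
    · rw [if_pos h, if_pos h]; simp only [lin, ev_add, ev_v, ev_z, yy]; 
    · rw [if_neg h, if_neg h]; simp only [lin, ev_add, ev_v, ev_z, yy]; ring
  rw [pQ, ev_FormQ, a0, a1, a2, a3, Form9]
  have b1 : ev (lin [0, 1, 1, 2, 3, 3, 4, 5, 6, 7, 8]) (yy ph s r ep m b e0 e1 z)
      = ph + 2 * s + r + 2 * ep + m + b + e0 + e1 + z := by
    simp only [lin, ev_add, ev_v, ev_z, yy]; ring
  have b2 : ev (lin [0, 1, 2, 3, 6]) (yy ph s r ep m b e0 e1 z) = ph + s + r + ep + e0 := by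
    simp only [lin, ev_add, ev_v, ev_z, yy]; ring
  have b3 : ev (lin [4, 5, 1, 3, 7]) (yy ph s r ep m b e0 e1 z) = m + b + s + ep + e1 := by
    simp only [lin, ev_add, ev_v, ev_z, yy]; ring
  have b4 : ev (lin [0, 1]) (yy ph s r ep m b e0 e1 z) = ph + s := by
    simp only [lin, ev_add, ev_v, ev_z, yy]; ring
  have b5 : ev (lin [0, 1, 2, 3]) (yy ph s r ep m b e0 e1 z) = ph + s + r + ep := by
    simp only [lin, ev_add, ev_v, ev_z, yy]; ring
  have b6 : ev (lin [4, 5, 1, 3]) (yy ph s r ep m b e0 e1 z) = m + b + s + ep := by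
    simp only [lin, ev_add, ev_v, ev_z, yy]; ring
  have b7 : ev (lin [4]) (yy ph s r ep m b e0 e1 z) = m := by
    simp only [lin, ev_add, ev_v, ev_z, yy]; ring
  have b8 : ev (lin [5]) (yy ph s r ep m b e0 e1 z) = b := by
    simp only [lin, ev_add, ev_v, ev_z, yy]; ring
  have b9 : ev (lin [0]) (yy ph s r ep m b e0 e1 z) = ph := by
    simp only [lin, ev_add, ev_v, ev_z, yy]; ring
  have b10 : ev (lin [3]) (yy ph s r ep m b e0 e1 z) = ep := by
    simp only [lin, ev_add, ev_v, ev_z, yy]; ring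
  rw [b1, b2, b3, b4, b5, b6, b7, b8, b9, b10]

theorem low_of (tc hc : ℕ) (t : T) (h : chkS t (pQ false tc hc) (gQ false) = true) :
    LowForm tc hc := by
  intro ph s r ep m b e0 e1 z h1 h2 h3 h4 h5 h6 h7 h8 h9 hg
  have key := good_le (chkS_sound t _ _ h) (yy ph s r ep m b e0 e1 z) (fun _ => 1)
    (yy_nonneg h1 h2 h3 h4 h5 h6 h7 h8 h9) (fun _ => zero_le_one)
    (by
      intro t ht
      have e : (gQ false) = lin [4, 5, 7, 8] - lin [0, 2, 6] := by simp [gQ]
      rw [e]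
      simp only [ev_sub', lin, ev_add, ev_v, ev_z, yy]
      linarith)
  rw [ev_pQ] at key
  simp only [Bool.false_eq_true, if_false] at key
  linarith

theorem high_of (tc hc : ℕ) (t : T) (h : chkS t (pQ true tc hc) (gQ true) = true) :
    HighForm tc hc := by
  intro ph s r ep m b e0 e1 z h1 h2 h3 h4 h5 h6 h7 h8 h9 hg
  have key := good_le (chkS_sound t _ _ h) (yy ph s r ep m b e0 e1 z)
    (fun i => if i = 0 ∨ i = 2 ∨ i = 6 then 2 else 1)
    (yy_nonneg h1 h2 h3 h4 h5 h6 h7 h8 h9) (fun i => by split_ifs <;> norm_num)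
    (by
      intro t ht
      have e : (gQ true) = lin [0, 2, 6] - lin [4, 5, 7, 8] := by simp [gQ]
      rw [e]
      simp only [ev_sub', lin, ev_add, ev_v, ev_z, yy]
      norm_num
      linarith)
  rw [ev_pQ] at key
  simp only [if_true] at key
  linarith

end Vale.Agent.P038.K4.H706
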