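import Vale.Agent.P038.K4.Final
import Vale.Agent.P038.K4.Reduce

/-!
# The local inequality from the twelve forms, in the shape used by the graph part
-/

namespace Vale.Agent.P038.K4

theorem localGen38_of_forms (hF : FormAll) : LocalGen (7/10) lm38 kp38 P38 := by
  intro x0 x1 x2 f0 g0 m b ph ep h f2 g2 p hx1 hx2 hf0 hg0 hm hb hph hep hh hf2 hg2 hp hx0 hx01
    hn0 hx0x1 hx1x2 hn1 hmb hphf hepg hhr hf2x hpf hpq
  have key := local_of_forms hF x0 x1 x2 f0 g0 m b ph ep h f2 g2 p hx1 hx2 hf0 hg0 hm hb hph hep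
    hh hf2 hg2 hp hx0 hx01 hn0 hx0x1 hx1x2 hn1 hmb hphf hepg hhr hf2x hpf hpq
  unfold lm38 kp38 P38
  unfold Pot7 at key
  have e : (7/10 : ℝ)^2*x0*(1-x0)-x1*(x1+x2+2*(7/10)*x0-1) =
      49/100*x0*(1-x0)-x1*(x1+x2+7/5*x0-1) := by ring
  rw [e]
  convert key using 2

end Vale.Agent.P038.K4
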