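import Vale.Agent.P038.K4.H1

/-!
# Relations between the quantities of a pair
-/

namespace Vale.Agent.P038.K4

open Finset

variable {V : Type*} [Fintype V]

section
open Classical

theorem mv_nonneg (D : OGraph V) (w : V → ℝ) (hw : ∀ v, 0 ≤ w v) (B : Finset V) (u a : V) :
    0 ≤ mv D w B u a := wt_nonneg hw _
theorem bv_nonneg (D : OGraph V) (w : V → ℝ) (hw : ∀ v, 0 ≤ w v) (B : Finset V) (u a : V) :
    0 ≤ bv D w B u a := wt_nonneg hw _
theorem phv_nonneg (D : OGraph V) (w : V → ℝ) (hw : ∀ v, 0 ≤ w v) (B : Finset V) (u a : V) :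
    0 ≤ phv D w B u a := wt_nonneg hw _
theorem fv_nonneg (D : OGraph V) (w : V → ℝ) (hw : ∀ v, 0 ≤ w v) (B : Finset V) (u : V) :
    0 ≤ fv D w B u := wt_nonneg hw _
theorem qv_nonneg (D : OGraph V) (w : V → ℝ) (hw : ∀ v, 0 ≤ w v) (B : Finset V) (u : V) :
    0 ≤ qv D w B u := wt_nonneg hw _

theorem B_split (D : OGraph V) (w : V → ℝ) (B : Finset V) (u : V) :
    wt w B = qv D w B u + fv D w B u + wt w (Es D B u) := by
  have h := wt_inter_partition D w B B (Finset.Subset.refl B) u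
  rw [Finset.inter_eq_right.2 (Qs_sub D B u), Finset.inter_eq_right.2 (Fs_sub D B u),
    Finset.inter_eq_right.2 (Es_sub D B u)] at h
  exact h

theorem Es_le_gv (D : OGraph V) (w : V → ℝ) (B : Finset V) (hB : wt w B ≤ 1) (u : V) :
    wt w (Es D B u) ≤ gv D w B u := by
  have := B_split D w B u
  unfold gv
  linarith

theorem gv_nonneg (D : OGraph V) (w : V → ℝ) (hw : ∀ v, 0 ≤ w v) (B : Finset V)
    (hB : wt w B ≤ 1) (u : V) : 0 ≤ gv D w B u :=
  (wt_nonneg hw _).trans (Es_le_gv D w B hB u)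

theorem epv_nonneg (D : OGraph V) (w : V → ℝ) (hw : ∀ v, 0 ≤ w v) (B : Finset V)
    (hB : wt w B ≤ 1) (u a : V) : 0 ≤ epv D w B u a := by
  have h1 := Es_le_gv D w B hB u
  have h2 : wt w (Es D B u ∩ Qs D B a) ≤ wt w (Es D B u) := wt_mono hw Finset.inter_subset_left
  unfold epv
  linarith

theorem epv_le (D : OGraph V) (w : V → ℝ) (hw : ∀ v, 0 ≤ w v) (B : Finset V)
    (u a : V) : epv D w B u a ≤ gv D w B u := by
  have h2 : 0 ≤ wt w (Es D B u ∩ Qs D B a) := wt_nonneg hw _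
  unfold epv
  linarith

theorem phv_le (D : OGraph V) (w : V → ℝ) (hw : ∀ v, 0 ≤ w v) (B : Finset V)
    (u a : V) : phv D w B u a ≤ fv D w B u := wt_mono hw Finset.inter_subset_left

theorem bv_le_q (D : OGraph V) (w : V → ℝ) (hw : ∀ v, 0 ≤ w v) (B : Finset V)
    (u a : V) : bv D w B u a ≤ qv D w B u := wt_mono hw Finset.inter_subset_left

theorem bv_le_f (D : OGraph V) (w : V → ℝ) (hw : ∀ v, 0 ≤ w v) (B : Finset V)
    (u a : V) : bv D w B u a ≤ fv D w B a := wt_mono hw Finset.inter_subset_right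

theorem mb_le_q (D : OGraph V) (w : V → ℝ) (hw : ∀ v, 0 ≤ w v) (B : Finset V)
    (u a : V) : mv D w B u a + bv D w B u a ≤ qv D w B u := by
  have h := wt_inter_partition D w B (Qs D B u) (Qs_sub D B u) a
  have h2 : 0 ≤ wt w (Qs D B u ∩ Qs D B a) := wt_nonneg hw _
  unfold mv bv qv
  linarith

/-- `n_a = m + b + ε + (f_u - φ)`. -/
theorem n_eq (D : OGraph V) (w : V → ℝ) (B : Finset V) (u a : V) :
    fv D w B a + gv D w B a = mv D w B u a + bv D w B u a + epv D w B u a +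
      (fv D w B u - phv D w B u a) := by
  have h := wt_inter_partition D w B (Qs D B u) (Qs_sub D B u) a
  have h2 := wt_inter_partition D w B (Qs D B a) (Qs_sub D B a) u
  rw [Finset.inter_comm (Qs D B a) (Qs D B u), Finset.inter_comm (Qs D B a) (Fs D B u),
    Finset.inter_comm (Qs D B a) (Es D B u)] at h2
  unfold gv epv gv mv bv phv
  have e1 : qv D w B u = wt w (Qs D B u) := rfl
  have e2 : qv D w B a = wt w (Qs D B a) := rfl
  rw [e1, e2]
  linarith

/-- `0 ≤ h`, where `f_a = b + h`. -/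
theorem h_nonneg (D : OGraph V) (w : V → ℝ) (hw : ∀ v, 0 ≤ w v) (B : Finset V) (u a : V) :
    0 ≤ fv D w B a - bv D w B u a := by
  have := bv_le_f D w hw B u a
  linarith

theorem h_le (D : OGraph V) (w : V → ℝ) (hw : ∀ v, 0 ≤ w v) (B : Finset V)
    (hB : wt w B ≤ 1) (u a : V) :
    fv D w B a - bv D w B u a ≤ epv D w B u a + (fv D w B u - phv D w B u a) := by
  have h := wt_inter_partition D w B (Fs D B a) (Fs_sub D B a) u
  rw [Finset.inter_comm (Fs D B a) (Qs D B u), Finset.inter_comm (Fs D B a) (Fs D B u),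
    Finset.inter_comm (Fs D B a) (Es D B u)] at h
  have h1 := wt_inter_partition D w B (Fs D B u) (Fs_sub D B u) a
  have h2 := wt_inter_partition D w B (Es D B u) (Es_sub D B u) a
  have h3 := Es_le_gv D w B hB u
  have h4 : 0 ≤ wt w (Fs D B u ∩ Es D B a) := wt_nonneg hw _
  have h5 : 0 ≤ wt w (Es D B u ∩ Es D B a) := wt_nonneg hw _
  have e1 : fv D w B a = wt w (Fs D B a) := rfl
  have e2 : fv D w B u = wt w (Fs D B u) := rfl
  rw [e1, e2]
  unfold epv bv phv
  linarith

end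

end Vale.Agent.P038.K4
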