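import Mathlib

/-!
# P038, K4-free case: reduction of the local inequality to the vertices of the window polytope

All statements are about real numbers; the constants of the potential are arbitrary parameters.
-/

namespace Vale.Agent.P038.K4

/-- A concave quadratic `A + B t - W (D + t)^2` which is nonnegative at both ends of a segment is
nonnegative on it. -/
theorem seg_nonneg (A B W D a c t : ℝ) (hW : 0 ≤ W) (h1 : a ≤ t) (h2 : t ≤ c)
    (ha : 0 ≤ A + B * a - W * (D + a) ^ 2) (hc : 0 ≤ A + B * c - W * (D + c) ^ 2) :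
    0 ≤ A + B * t - W * (D + t) ^ 2 := by
  rcases eq_or_lt_of_le (h1.trans h2) with h | h
  · have : t = a := le_antisymm (h ▸ h2) h1
    rw [this]; exact ha
  · have key : (c - a) * (A + B * t - W * (D + t) ^ 2)
        = (c - t) * (A + B * a - W * (D + a) ^ 2) + (t - a) * (A + B * c - W * (D + c) ^ 2)
          + W * ((t - a) * (c - t)) * (c - a) := by ring
    have h3 : 0 ≤ (c - a) * (A + B * t - W * (D + t) ^ 2) := by
      rw [key]
      have e1 : 0 ≤ (c - t) := by linarith
      have e2 : 0 ≤ (t - a) := by linarith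
      have e3 : 0 ≤ c - a := by linarith
      positivity
    have h4 : 0 < c - a := by linarith
    by_contra hcon
    push Not at hcon
    have := mul_neg_of_pos_of_neg h4 hcon
    linarith

/-- A linear function on a segment. -/
theorem lin_nonneg (A B a c t : ℝ) (h1 : a ≤ t) (h2 : t ≤ c)
    (ha : 0 ≤ A + B * a) (hc : 0 ≤ A + B * c) : 0 ≤ A + B * t := by
  have := seg_nonneg A B 0 0 a c t le_rfl h1 h2 (by simpa using ha) (by simpa using hc)
  simpa using this

/-- The vertices `(b, ep, s)` of `{b, ep, s ≥ 0, ep ≤ g, s ≤ f, b + ep + s ≤ S}`. -/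
def Vtx (f g S b ep s : ℝ) : Prop :=
  ((ep = 0 ∨ ep = g) ∧ (s = 0 ∨ s = f) ∧ (b = 0 ∨ b = S - ep - s) ∧ ep + s ≤ S) ∨
  (b = 0 ∧ ep + s = S ∧ 0 ≤ ep ∧ ep ≤ g ∧ 0 ≤ s ∧ s ≤ f ∧ (ep = 0 ∨ ep = g ∨ s = 0 ∨ s = f))

/-- Reduction (R0): the linear-minus-square function on the polytope. -/
theorem red_polytope (C Cb Ce Cs W m f g S : ℝ) (hW : 0 ≤ W) (hf : 0 ≤ f) (hg : 0 ≤ g)
    (hV : ∀ b ep s : ℝ, Vtx f g S b ep s →
      0 ≤ C + Cb * b + Ce * ep + Cs * s - W * (m + b + ep + s) ^ 2)
    (b ep s : ℝ) (hb : 0 ≤ b) (hep : 0 ≤ ep) (hs : 0 ≤ s) (hepg : ep ≤ g) (hsf : s ≤ f)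
    (hS : b + ep + s ≤ S) :
    0 ≤ C + Cb * b + Ce * ep + Cs * s - W * (m + b + ep + s) ^ 2 := by
  -- the edge `ep + s = S`, `b = 0`
  have edge : ∀ e t : ℝ, 0 ≤ e → e ≤ g → 0 ≤ t → t ≤ f → e + t = S →
      0 ≤ C + Cb * 0 + Ce * e + Cs * t - W * (m + 0 + e + t) ^ 2 := by
    intro e t he heg ht htf het
    -- lower end of `t`
    have lo : 0 ≤ C + Cb * 0 + Ce * (S - max 0 (S - g)) + Cs * (max 0 (S - g))
        - W * (m + 0 + (S - max 0 (S - g)) + (max 0 (S - g))) ^ 2 := by
      apply hV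
      right
      rcases le_total (S - g) 0 with h | h
      · rw [max_eq_left h]
        refine ⟨rfl, by ring, by linarith, by linarith, le_rfl, hf, ?_⟩
        right; right; left; rfl
      · rw [max_eq_right h]
        refine ⟨rfl, by ring, by linarith, by linarith, h, by linarith, ?_⟩
        right; left; ring
    have hi : 0 ≤ C + Cb * 0 + Ce * (S - min f S) + Cs * (min f S)
        - W * (m + 0 + (S - min f S) + (min f S)) ^ 2 := by
      apply hV
      right
      rcases le_total f S with h | h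
      · rw [min_eq_left h]
        refine ⟨rfl, by ring, by linarith, by linarith, hf, le_rfl, ?_⟩
        right; right; right; rfl
      · rw [min_eq_right h]
        refine ⟨rfl, by ring, by linarith, by linarith, by linarith, h, ?_⟩
        left; ring
    have h1 : max 0 (S - g) ≤ t := max_le ht (by linarith)
    have h2 : t ≤ min f S := le_min htf (by linarith)
    have := lin_nonneg (C + Ce * S - W * (m + S) ^ 2) (Cs - Ce) (max 0 (S - g)) (min f S) t h1 h2
      (by ring_nf at lo ⊢; linarith) (by ring_nf at hi ⊢; linarith)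
    have e1 : e = S - t := by linarith
    rw [e1]
    ring_nf at this ⊢
    linarith
  -- fixed `s`, `b = 0`
  -- `ep = 0`, `b = 0`
  have A1 : ∀ e : ℝ, (e = 0 ∨ e = g) → e ≤ S → ∀ t : ℝ, 0 ≤ t → t ≤ f → e + t ≤ S →
      0 ≤ C + Cb * 0 + Ce * e + Cs * t - W * (m + 0 + e + t) ^ 2 := by
    intro e he heS t ht htf het
    have he0 : 0 ≤ e := by rcases he with h | h <;> rw [h]; exact hg
    have heg : e ≤ g := by
      rcases he with h | h
      · rw [h]; exact hg
      · rw [h]
    have h0 : 0 ≤ C + Cb * 0 + Ce * e + Cs * 0 - W * (m + 0 + e + 0) ^ 2 := by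
      apply hV
      left
      exact ⟨he, Or.inl rfl, Or.inl rfl, by linarith⟩
    have h1 : 0 ≤ C + Cb * 0 + Ce * e + Cs * (min f (S - e)) - W * (m + 0 + e + min f (S - e)) ^ 2 := by
      rcases le_total f (S - e) with h | h
      · rw [min_eq_left h]
        apply hV
        left
        exact ⟨he, Or.inr rfl, Or.inl rfl, by linarith⟩
      · rw [min_eq_right h]
        exact edge e (S - e) he0 heg (by linarith) h (by ring)
    have := seg_nonneg (C + Ce * e) Cs W (m + e) 0 (min f (S - e)) t hW ht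
      (le_min htf (by linarith)) (by ring_nf at h0 ⊢; linarith) (by ring_nf at h1 ⊢; linarith)
    ring_nf at this ⊢
    linarith
  have A2 : ∀ e t : ℝ, 0 ≤ e → e ≤ g → 0 ≤ t → t ≤ f → e + t ≤ S →
      0 ≤ C + Cb * 0 + Ce * e + Cs * t - W * (m + 0 + e + t) ^ 2 := by
    intro e t he heg ht htf het
    have h0 := A1 0 (Or.inl rfl) (by linarith) t ht htf (by linarith)
    have h1 : 0 ≤ C + Cb * 0 + Ce * (min g (S - t)) + Cs * t - W * (m + 0 + min g (S - t) + t) ^ 2 := by
      rcases le_total g (S - t) with h | h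
      · rw [min_eq_left h]
        exact A1 g (Or.inr rfl) (by linarith) t ht htf (by linarith)
      · rw [min_eq_right h]
        exact edge (S - t) t (by linarith) h ht htf (by ring)
    have := seg_nonneg (C + Cs * t) Ce W (m + t) 0 (min g (S - t)) e hW he
      (le_min heg (by linarith)) (by ring_nf at h0 ⊢; linarith) (by ring_nf at h1 ⊢; linarith)
    ring_nf at this ⊢
    linarith
  -- the face `b = S - ep - s` : linear in `(ep, s)`
  have B1 : ∀ e : ℝ, (e = 0 ∨ e = g) → e ≤ S → ∀ t : ℝ, 0 ≤ t → t ≤ f → e + t ≤ S →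
      0 ≤ C + Cb * (S - e - t) + Ce * e + Cs * t - W * (m + (S - e - t) + e + t) ^ 2 := by
    intro e he heS t ht htf het
    have he0 : 0 ≤ e := by rcases he with h | h <;> rw [h]; exact hg
    have heg : e ≤ g := by
      rcases he with h | h
      · rw [h]; exact hg
      · rw [h]
    have h0 : 0 ≤ C + Cb * (S - e - 0) + Ce * e + Cs * 0 - W * (m + (S - e - 0) + e + 0) ^ 2 := by
      apply hV
      left
      exact ⟨he, Or.inl rfl, Or.inr rfl, by linarith⟩
    have h1 : 0 ≤ C + Cb * (S - e - (min f (S - e))) + Ce * e + Cs * (min f (S - e))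
        - W * (m + (S - e - (min f (S - e))) + e + min f (S - e)) ^ 2 := by
      rcases le_total f (S - e) with h | h
      · rw [min_eq_left h]
        apply hV
        left
        exact ⟨he, Or.inr rfl, Or.inr rfl, by linarith⟩
      · rw [min_eq_right h]
        have := edge e (S - e) he0 heg (by linarith) h (by ring)
        ring_nf at this ⊢
        linarith
    have := lin_nonneg (C + Cb * (S - e) + Ce * e - W * (m + S) ^ 2) (Cs - Cb) 0 (min f (S - e)) t ht
      (le_min htf (by linarith)) (by ring_nf at h0 ⊢; linarith) (by ring_nf at h1 ⊢; linarith)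
    ring_nf at this ⊢
    linarith
  have B2 : ∀ e t : ℝ, 0 ≤ e → e ≤ g → 0 ≤ t → t ≤ f → e + t ≤ S →
      0 ≤ C + Cb * (S - e - t) + Ce * e + Cs * t - W * (m + (S - e - t) + e + t) ^ 2 := by
    intro e t he heg ht htf het
    have h0 := B1 0 (Or.inl rfl) (by linarith) t ht htf (by linarith)
    have h1 : 0 ≤ C + Cb * (S - (min g (S - t)) - t) + Ce * (min g (S - t)) + Cs * t
        - W * (m + (S - (min g (S - t)) - t) + min g (S - t) + t) ^ 2 := by
      rcases le_total g (S - t) with h | h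
      · rw [min_eq_left h]
        exact B1 g (Or.inr rfl) (by linarith) t ht htf (by linarith)
      · rw [min_eq_right h]
        have := edge (S - t) t (by linarith) h ht htf (by ring)
        ring_nf at this ⊢
        linarith
    have := lin_nonneg (C + Cb * (S - t) + Cs * t - W * (m + S) ^ 2) (Ce - Cb) 0 (min g (S - t)) e he
      (le_min heg (by linarith)) (by ring_nf at h0 ⊢; linarith) (by ring_nf at h1 ⊢; linarith)
    ring_nf at this ⊢
    linarith
  -- conclusion: move `b`
  have h0 := A2 ep s hep hepg hs hsf (by linarith)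
  have h1 := B2 ep s hep hepg hs hsf (by linarith)
  have := seg_nonneg (C + Ce * ep + Cs * s) Cb W (m + ep + s) 0 (S - ep - s) b hW hb (by linarith)
    (by ring_nf at h0 ⊢; linarith) (by ring_nf at h1 ⊢; linarith)
  ring_nf at this ⊢
  linarith

/-- Reduction (R1): with the additional variable `h` (`0 ≤ h ≤ ep + s`, linear). -/
theorem red_polytope_h (C Cb Ce Cs Ch W m f g S : ℝ) (hW : 0 ≤ W) (hf : 0 ≤ f) (hg : 0 ≤ g)
    (hV : ∀ b ep s h : ℝ, Vtx f g S b ep s → (h = 0 ∨ h = ep + s) →
      0 ≤ C + Cb * b + Ce * ep + Cs * s + Ch * h - W * (m + b + ep + s) ^ 2)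
    (b ep s h : ℝ) (hb : 0 ≤ b) (hep : 0 ≤ ep) (hs : 0 ≤ s) (hepg : ep ≤ g) (hsf : s ≤ f)
    (hS : b + ep + s ≤ S) (hh : 0 ≤ h) (hh2 : h ≤ ep + s) :
    0 ≤ C + Cb * b + Ce * ep + Cs * s + Ch * h - W * (m + b + ep + s) ^ 2 := by
  have h0 := red_polytope C Cb Ce Cs W m f g S hW hf hg
    (fun b ep s hv => by simpa using hV b ep s 0 hv (Or.inl rfl)) b ep s hb hep hs hepg hsf hS
  have h1 := red_polytope C Cb (Ce + Ch) (Cs + Ch) W m f g S hW hf hg
    (fun b ep s hv => by
      have := hV b ep s (ep + s) hv (Or.inr rfl)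
      ring_nf at this ⊢
      linarith) b ep s hb hep hs hepg hsf hS
  have := lin_nonneg (C + Cb * b + Ce * ep + Cs * s - W * (m + b + ep + s) ^ 2) Ch 0 (ep + s) h hh hh2
    (by linarith) (by ring_nf at h1 ⊢; linarith)
  linarith

/-- Reduction (R2): the pair `(f2, p)`: `p ≤ f2`, `p ≤ q`, `f2 ≤ x2`; the coefficient of `p` is
`-a ≤ 0`, that of `f2` is `c ≥ 0`. -/
theorem red_p (R a c x2 q f2 p : ℝ) (hc : 0 ≤ c) (hp : 0 ≤ p) (hpf : p ≤ f2)
    (hpq : p ≤ q) (hf2 : f2 ≤ x2)
    (h0 : 0 ≤ R) (h1 : x2 ≤ q → 0 ≤ R - a * x2 + c * x2) (h2 : q ≤ x2 → 0 ≤ R - a * q + c * q) :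
    0 ≤ R - a * p + c * f2 := by
  have e1 : 0 ≤ R - a * p + c * p := by
    rcases le_total x2 q with h | h
    · have := lin_nonneg R (c - a) 0 x2 p hp (by linarith) (by linarith) (by linarith [h1 h])
      linarith
    · have := lin_nonneg R (c - a) 0 q p hp (by linarith) (by linarith) (by linarith [h2 h])
      linarith
  nlinarith

end Vale.Agent.P038.K4
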