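import Vale.Agent.P038.K4.Red

/-!
# P038, K4-free case: abstract reduction to the vertices

`Seg φ a c`: nonnegativity at the two ends of `[a, c]` gives nonnegativity on `[a, c]`
(true for concave `φ`).
-/

namespace Vale.Agent.P038.K4

/-- nonnegativity passes from the ends of the segment to its inside -/
def Seg (φ : ℝ → ℝ) (a c : ℝ) : Prop :=
  ∀ t, a ≤ t → t ≤ c → 0 ≤ φ a → 0 ≤ φ c → 0 ≤ φ t

/-- the chord inequality gives `Seg` -/
theorem seg_of_chord (φ : ℝ → ℝ) (a c : ℝ)
    (h : ∀ t, a ≤ t → t ≤ c → (c - t) * φ a + (t - a) * φ c ≤ (c - a) * φ t) : Seg φ a c := by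
  intro t h1 h2 ha hc
  rcases eq_or_lt_of_le (h1.trans h2) with e | e
  · have : t = a := le_antisymm (e ▸ h2) h1
    rw [this]; exact ha
  · have h3 := h t h1 h2
    have h4 : 0 ≤ (c - t) * φ a + (t - a) * φ c :=
      add_nonneg (mul_nonneg (by linarith) ha) (mul_nonneg (by linarith) hc)
    have h5 : 0 < c - a := by linarith
    by_contra hcon
    push Not at hcon
    have := mul_neg_of_pos_of_neg h5 hcon
    linarith

theorem seg_of_concaveOn (φ : ℝ → ℝ) (a c : ℝ) (h : ConcaveOn ℝ (Set.Icc a c) φ) : Seg φ a c := by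
  intro t h1 h2 ha hc
  rcases eq_or_lt_of_le (h1.trans h2) with e | e
  · have : t = a := le_antisymm (e ▸ h2) h1
    rw [this]; exact ha
  · have hca : 0 < c - a := by linarith
    have hne : c - a ≠ 0 := hca.ne'
    have h5 := h.2 (show a ∈ Set.Icc a c from ⟨le_rfl, e.le⟩)
      (show c ∈ Set.Icc a c from ⟨e.le, le_rfl⟩)
      (show 0 ≤ (c - t) / (c - a) from div_nonneg (by linarith) hca.le)
      (show 0 ≤ (t - a) / (c - a) from div_nonneg (by linarith) hca.le)
      (by rw [← add_div, div_eq_one_iff_eq hne]; ring)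
    have e2 : ((c - t) / (c - a)) * a + ((t - a) / (c - a)) * c = t := by
      rw [div_mul_eq_mul_div, div_mul_eq_mul_div, ← add_div, div_eq_iff hne]; ring
    simp only [smul_eq_mul] at h5
    rw [e2] at h5
    exact le_trans (add_nonneg (mul_nonneg (div_nonneg (by linarith) hca.le) ha)
      (mul_nonneg (div_nonneg (by linarith) hca.le) hc)) h5

/-- Cubic polynomial `A + B t + Q t^2 + K t^3` whose chord defect `Q + K (a + t + c)` is `≤ 0`. -/
theorem seg_cubic (A B Q K a c : ℝ) (h : ∀ t, a ≤ t → t ≤ c → Q + K * (a + t + c) ≤ 0) :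
    Seg (fun t => A + B * t + Q * t ^ 2 + K * t ^ 3) a c := by
  apply seg_of_chord
  intro t h1 h2
  have key : (c - a) * (A + B * t + Q * t ^ 2 + K * t ^ 3)
      - ((c - t) * (A + B * a + Q * a ^ 2 + K * a ^ 3)
        + (t - a) * (A + B * c + Q * c ^ 2 + K * c ^ 3))
      = -(Q + K * (a + t + c)) * (((t - a) * (c - t)) * (c - a)) := by ring
  have h3 : 0 ≤ -(Q + K * (a + t + c)) * (((t - a) * (c - t)) * (c - a)) :=
    mul_nonneg (by linarith [h t h1 h2])
      (mul_nonneg (mul_nonneg (by linarith) (by linarith)) (by linarith))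
  linarith

theorem seg_congr {φ ψ : ℝ → ℝ} {a c : ℝ} (h : ∀ t, φ t = ψ t) (hs : Seg ψ a c) : Seg φ a c := by
  have : φ = ψ := funext h
  rw [this]; exact hs

/-- Abstract reduction to the vertices of `{b, ep, s ≥ 0, ep ≤ g, s ≤ f, b + ep + s ≤ S}`. -/
theorem red_abs (F : ℝ → ℝ → ℝ → ℝ) (f g S : ℝ) (hf : 0 ≤ f) (hg : 0 ≤ g)
    (hb : ∀ ep s, 0 ≤ ep → ep ≤ g → 0 ≤ s → s ≤ f → ep + s ≤ S →
      Seg (fun b => F b ep s) 0 (S - ep - s))
    (hs0 : ∀ ep, 0 ≤ ep → ep ≤ g → ep ≤ S → Seg (fun s => F 0 ep s) 0 (min f (S - ep)))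
    (he0 : ∀ s, 0 ≤ s → s ≤ f → s ≤ S → Seg (fun e => F 0 e s) 0 (min g (S - s)))
    (hs1 : ∀ ep, 0 ≤ ep → ep ≤ g → ep ≤ S →
      Seg (fun s => F (S - ep - s) ep s) 0 (min f (S - ep)))
    (he1 : ∀ s, 0 ≤ s → s ≤ f → s ≤ S → Seg (fun e => F (S - e - s) e s) 0 (min g (S - s)))
    (hed : 0 ≤ S → S ≤ f + g → Seg (fun s => F 0 (S - s) s) (max 0 (S - g)) (min f S))
    (hV : ∀ b ep s : ℝ, Vtx f g S b ep s → 0 ≤ F b ep s)
    (b ep s : ℝ) (hb0 : 0 ≤ b) (hep : 0 ≤ ep) (hs : 0 ≤ s) (hepg : ep ≤ g) (hsf : s ≤ f)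
    (hS : b + ep + s ≤ S) : 0 ≤ F b ep s := by
  -- the edge `ep + s = S`, `b = 0`
  have edge : ∀ e t : ℝ, 0 ≤ e → e ≤ g → 0 ≤ t → t ≤ f → e + t = S → 0 ≤ F 0 e t := by
    intro e t he heg ht htf het
    have lo : 0 ≤ F 0 (S - max 0 (S - g)) (max 0 (S - g)) := by
      apply hV
      right
      rcases le_total (S - g) 0 with h | h
      · rw [max_eq_left h]
        refine ⟨rfl, by ring, by linarith, by linarith, le_rfl, hf, ?_⟩
        right; right; left; rfl
      · rw [max_eq_right h]
        refine ⟨rfl, by ring, by linarith, by linarith, h, by linarith, ?_⟩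
        right; left; ring
    have hi : 0 ≤ F 0 (S - min f S) (min f S) := by
      apply hV
      right
      rcases le_total f S with h | h
      · rw [min_eq_left h]
        refine ⟨rfl, by ring, by linarith, by linarith, hf, le_rfl, ?_⟩
        right; right; right; rfl
      · rw [min_eq_right h]
        refine ⟨rfl, by ring, by linarith, by linarith, by linarith, h, ?_⟩
        left; ring
    have h1 : max 0 (S - g) ≤ t := max_le ht (by linarith)
    have h2 : t ≤ min f S := le_min htf (by linarith)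
    have := hed (by linarith) (by linarith) t h1 h2 lo hi
    have e1 : e = S - t := by linarith
    rw [e1]
    exact this
  have A1 : ∀ e : ℝ, (e = 0 ∨ e = g) → e ≤ S → ∀ t : ℝ, 0 ≤ t → t ≤ f → e + t ≤ S →
      0 ≤ F 0 e t := by
    intro e he heS t ht htf het
    have he0' : 0 ≤ e := by rcases he with h | h <;> rw [h]; exact hg
    have heg : e ≤ g := by
      rcases he with h | h
      · rw [h]; exact hg
      · rw [h]
    have h0 : 0 ≤ F 0 e 0 := hV _ _ _ (Or.inl ⟨he, Or.inl rfl, Or.inl rfl, by linarith⟩)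
    have h1 : 0 ≤ F 0 e (min f (S - e)) := by
      rcases le_total f (S - e) with h | h
      · rw [min_eq_left h]
        exact hV _ _ _ (Or.inl ⟨he, Or.inr rfl, Or.inl rfl, by linarith⟩)
      · rw [min_eq_right h]
        exact edge e (S - e) he0' heg (by linarith) h (by ring)
    exact hs0 e he0' heg heS t ht (le_min htf (by linarith)) h0 h1
  have A2 : ∀ e t : ℝ, 0 ≤ e → e ≤ g → 0 ≤ t → t ≤ f → e + t ≤ S → 0 ≤ F 0 e t := by
    intro e t he heg ht htf het
    have h0 := A1 0 (Or.inl rfl) (by linarith) t ht htf (by linarith)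
    have h1 : 0 ≤ F 0 (min g (S - t)) t := by
      rcases le_total g (S - t) with h | h
      · rw [min_eq_left h]
        exact A1 g (Or.inr rfl) (by linarith) t ht htf (by linarith)
      · rw [min_eq_right h]
        exact edge (S - t) t (by linarith) h ht htf (by ring)
    exact he0 t ht htf (by linarith) e he (le_min heg (by linarith)) h0 h1
  have B1 : ∀ e : ℝ, (e = 0 ∨ e = g) → e ≤ S → ∀ t : ℝ, 0 ≤ t → t ≤ f → e + t ≤ S →
      0 ≤ F (S - e - t) e t := by
    intro e he heS t ht htf het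
    have he0' : 0 ≤ e := by rcases he with h | h <;> rw [h]; exact hg
    have heg : e ≤ g := by
      rcases he with h | h
      · rw [h]; exact hg
      · rw [h]
    have h0 : 0 ≤ F (S - e - 0) e 0 :=
      hV _ _ _ (Or.inl ⟨he, Or.inl rfl, Or.inr rfl, by linarith⟩)
    have h1 : 0 ≤ F (S - e - (min f (S - e))) e (min f (S - e)) := by
      rcases le_total f (S - e) with h | h
      · rw [min_eq_left h]
        exact hV _ _ _ (Or.inl ⟨he, Or.inr rfl, Or.inr rfl, by linarith⟩)
      · rw [min_eq_right h]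
        have h6 := edge e (S - e) he0' heg (by linarith) h (by ring)
        have e6 : S - e - (S - e) = 0 := by ring
        rw [e6]; exact h6
    exact hs1 e he0' heg heS t ht (le_min htf (by linarith)) h0 h1
  have B2 : ∀ e t : ℝ, 0 ≤ e → e ≤ g → 0 ≤ t → t ≤ f → e + t ≤ S → 0 ≤ F (S - e - t) e t := by
    intro e t he heg ht htf het
    have h0 := B1 0 (Or.inl rfl) (by linarith) t ht htf (by linarith)
    have h1 : 0 ≤ F (S - (min g (S - t)) - t) (min g (S - t)) t := by
      rcases le_total g (S - t) with h | h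
      · rw [min_eq_left h]
        exact B1 g (Or.inr rfl) (by linarith) t ht htf (by linarith)
      · rw [min_eq_right h]
        have h6 := edge (S - t) t (by linarith) h ht htf (by ring)
        have e6 : S - (S - t) - t = 0 := by ring
        rw [e6]; exact h6
    exact he1 t ht htf (by linarith) e he (le_min heg (by linarith)) h0 h1
  have h0 := A2 ep s hep hepg hs hsf (by linarith)
  have h1 := B2 ep s hep hepg hs hsf (by linarith)
  exact hb ep s hep hepg hs hsf (by linarith) b hb0 (by linarith) h0 h1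

end Vale.Agent.P038.K4
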