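import Vale.Agent.P038.K4.Form

/-!
# P038, K4-free case: the twelve forms from their strict versions, and the integer scaling
-/

namespace Vale.Agent.P038.K4

open Filter Topology

/-- `LowForm` on the open half space -/
def LowFormS (tc hc : ℕ) : Prop :=
  ∀ ph s r ep m b e0 e1 z : ℝ, 0 ≤ ph → 0 ≤ s → 0 ≤ r → 0 ≤ ep → 0 ≤ m → 0 ≤ b → 0 ≤ e0 →
    0 ≤ e1 → 0 ≤ z → ph + r + e0 < m + b + e1 + z →
    0 ≤ Form9 0 (if tc = 0 then 0 else ph + s + r + ep + e0 + z)
      (if tc = 2 then ph + s + r + ep + e0 + z else 0) (if hc = 0 then 0 else s + ep)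
      ph s r ep m b e0 e1 z

/-- `HighForm` on the open half space -/
def HighFormS (tc hc : ℕ) : Prop :=
  ∀ ph s r ep m b e0 e1 z : ℝ, 0 ≤ ph → 0 ≤ s → 0 ≤ r → 0 ≤ ep → 0 ≤ m → 0 ≤ b → 0 ≤ e0 →
    0 ≤ e1 → 0 ≤ z → m + b + e1 + z < ph + r + e0 →
    0 ≤ Form9 (ph + r + e0 - (m + b + e1 + z)) (if tc = 0 then 0 else ph + s + r + ep + e0 + z)
      (if tc = 2 then ph + s + r + ep + e0 + z else 0) (if hc = 0 then 0 else s + ep)
      ph s r ep m b e0 e1 z

theorem nonneg_of_right (F : ℝ → ℝ) (hF : Continuous F) (h : ∀ t, 0 < t → 0 ≤ F t) : 0 ≤ F 0 := by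
  have h1 : Tendsto F (𝓝[>] 0) (𝓝 (F 0)) := (hF.tendsto 0).mono_left nhdsWithin_le_nhds
  refine ge_of_tendsto h1 ?_
  filter_upwards [self_mem_nhdsWithin] with t ht using h t ht

theorem low_of_strict {tc hc : ℕ} (H : LowFormS tc hc) : LowForm tc hc := by
  intro ph s r ep m b e0 e1 z h1 h2 h3 h4 h5 h6 h7 h8 h9 hL
  have key := nonneg_of_right
    (fun t => Form9 0 (if tc = 0 then 0 else ph + s + r + ep + e0 + (z + t))
      (if tc = 2 then ph + s + r + ep + e0 + (z + t) else 0) (if hc = 0 then 0 else s + ep)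
      ph s r ep m b e0 e1 (z + t))
    (by
      unfold Form9 Form Ph
      split_ifs <;> fun_prop)
    (fun t ht => H ph s r ep m b e0 e1 (z + t) h1 h2 h3 h4 h5 h6 h7 h8 (by linarith) (by linarith))
  simpa using key

theorem high_of_strict {tc hc : ℕ} (H : HighFormS tc hc) : HighForm tc hc := by
  intro ph s r ep m b e0 e1 z h1 h2 h3 h4 h5 h6 h7 h8 h9 hL
  have key := nonneg_of_right
    (fun t => Form9 (ph + r + (e0 + t) - (m + b + e1 + z))
      (if tc = 0 then 0 else ph + s + r + ep + (e0 + t) + z)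
      (if tc = 2 then ph + s + r + ep + (e0 + t) + z else 0) (if hc = 0 then 0 else s + ep)
      ph s r ep m b (e0 + t) e1 z)
    (by
      unfold Form9 Form Ph
      split_ifs <;> fun_prop)
    (fun t ht => H ph s r ep m b (e0 + t) e1 z h1 h2 h3 h4 h5 h6 (by linarith) h8 h9
      (by linarith))
  simpa using key

end Vale.Agent.P038.K4
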